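import Vale.Agent.Lib.P037.EPat.Main
import Vale.Agent.Lib.P037.Perm

namespace Vale.Agent.Lib.P037

open Finset EPat

/-- the pattern with rows `1 1` and `1 0` -/
def ePattern : Fin 2 → Fin 2 → Bool := fun i j => decide (i = 0 ∨ j = 0)

/-- the set of columns in which row `u` has a one -/
def rowSet {n : ℕ} (A : Fin n → Fin n → Bool) (u : Fin n) : Finset (Fin n) :=
  univ.filter (fun c => A u c = true)

/-- the matrix with given row sets -/
def ofRows {n : ℕ} (B : Fin n → Finset (Fin n)) : Fin n → Fin n → Bool :=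
  fun u c => decide (c ∈ B u)

theorem mem_rowSet {n : ℕ} (A : Fin n → Fin n → Bool) (u c : Fin n) :
    c ∈ rowSet A u ↔ A u c = true := by
  unfold rowSet
  rw [mem_filter]
  simp

theorem rowSet_ofRows {n : ℕ} (B : Fin n → Finset (Fin n)) : rowSet (ofRows B) = B := by
  funext u
  ext c
  rw [mem_rowSet]
  simp [ofRows]

theorem numCopies_E {n : ℕ} (A : Fin n → Fin n → Bool) :
    numCopies ePattern A = NE (rowSet A) := by
  unfold numCopies
  rw [Finset.card_eq_sum_card_fiberwise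
    (f := fun p : (Fin 2 → Fin n) × (Fin 2 → Fin n) => (p.1 0, p.1 1)) (t := univ)
    (fun x _ => Finset.mem_coe.2 (mem_univ _))]
  rw [Fintype.sum_prod_type]
  unfold NE
  refine Finset.sum_congr rfl (fun u _ => Finset.sum_congr rfl (fun v _ => ?_))
  split_ifs with huv
  · refine Finset.card_bij (fun p _ => (p.2 0, p.2 1)) ?_ ?_ ?_
    · rintro ⟨r, c⟩ hp
      simp only [mem_filter, mem_univ, true_and, Prod.mk.injEq] at hp
      obtain ⟨⟨hr, hc, hA⟩, hr0, hr1⟩ := hp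
      rw [mem_vio]
      refine ⟨hc (by decide), ?_, ?_, ?_, ?_⟩
      · rw [mem_rowSet, ← hr0]
        simpa [ePattern] using hA 0 0
      · rw [mem_rowSet, ← hr1]
        simpa [ePattern] using hA 1 0
      · rw [mem_rowSet, ← hr0]
        simpa [ePattern] using hA 0 1
      · rw [mem_rowSet, ← hr1]
        simpa [ePattern] using hA 1 1
    · rintro ⟨r, c⟩ hp ⟨r', c'⟩ hp' h
      simp only [mem_filter, mem_univ, true_and, Prod.mk.injEq] at hp hp' h
      obtain ⟨_, hr0, hr1⟩ := hp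
      obtain ⟨_, hr0', hr1'⟩ := hp'
      have hr : r = r' := by
        funext i
        fin_cases i
        · exact hr0.trans hr0'.symm
        · exact hr1.trans hr1'.symm
      have hc : c = c' := by
        funext i
        fin_cases i
        · exact h.1
        · exact h.2
      rw [hr, hc]
    · rintro ⟨c1, c2⟩ hx
      rw [mem_vio] at hx
      obtain ⟨hlt, h1, h2, h3, h4⟩ := hx
      rw [mem_rowSet] at h1 h2 h3 h4
      refine ⟨(![u, v], ![c1, c2]), ?_, rfl⟩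
      simp only [mem_filter, mem_univ, true_and]
      refine ⟨⟨?_, ?_, ?_⟩, ?_⟩
      · intro i j hij
        fin_cases i <;> fin_cases j <;> simp_all
      · intro i j hij
        fin_cases i <;> fin_cases j <;> simp_all
      · intro i j
        fin_cases i <;> fin_cases j <;> simp [ePattern, h1, h2, h3, h4]
      · simp
  · rw [Finset.card_eq_zero, Finset.filter_eq_empty_iff]
    rintro ⟨r, c⟩ hp hq
    simp only [mem_filter, mem_univ, true_and] at hp
    simp only [Prod.mk.injEq] at hq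
    apply huv
    rw [← hq.1, ← hq.2]
    exact hp.1 (by decide)

theorem NE_of_EFree {n : ℕ} (B : Fin n → Finset (Fin n)) (h : EFree B) : NE B = 0 := by
  unfold NE
  refine Finset.sum_eq_zero (fun u _ => Finset.sum_eq_zero (fun v _ => ?_))
  split_ifs with huv
  · rw [Finset.card_eq_zero, Finset.eq_empty_iff_forall_notMem]
    rintro ⟨c, d⟩ hx
    rw [mem_vio] at hx
    exact hx.2.2.2.2 (h u v huv c d hx.1 hx.2.1 hx.2.2.2.1 hx.2.2.1)
  · rfl

theorem numDiff_ofRows {n : ℕ} (A : Fin n → Fin n → Bool) (B : Fin n → Finset (Fin n)) :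
    numDiff A (ofRows B) = ∑ u, (symmDiff (rowSet A u) (B u)).card := by
  rw [numDiff_eq]
  unfold diff
  refine Finset.sum_congr rfl (fun u _ => ?_)
  congr 1
  ext c
  rw [mem_filter, Finset.mem_symmDiff, mem_rowSet]
  unfold ofRows
  by_cases hc : c ∈ B u <;> cases hA : A u c <;> simp [hc]

theorem E_nat (n k : ℕ) (hk : 1 ≤ k) (A : Fin n → Fin n → Bool)
    (h : numCopies ePattern A * (5 * k * (400 * k ^ 2) * (400 * k ^ 2 + 1)) ^ 4 ≤ n ^ 4) :
    ∃ B : Fin n → Fin n → Bool, numCopies ePattern B = 0 ∧ k * numDiff A B ≤ n ^ 2 := by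
  rw [numCopies_E] at h
  obtain ⟨B, hB, hcost⟩ := main_E (rowSet A) n k (Fintype.card_fin n) (Fintype.card_fin n) hk h
  refine ⟨ofRows B, ?_, ?_⟩
  · rw [numCopies_E, rowSet_ofRows]
    exact NE_of_EFree B hB
  · rw [numDiff_ofRows]
    exact hcost

theorem E_removal (n : ℕ) (ε : ℝ) (A : Fin n → Fin n → Bool) (hε : 0 < ε) (hε1 : ε < 1)
    (hfar : ∀ B : Fin n → Fin n → Bool, numCopies ePattern B = 0 →
      ε * (n : ℝ) ^ 2 ≤ (numDiff A B : ℝ)) :
    (ε / 46) ^ 20 * (n : ℝ) ^ 4 ≤ (numCopies ePattern A : ℝ) := by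
  by_contra hcon
  rw [not_le] at hcon
  have hNI : (0 : ℝ) ≤ numCopies ePattern A := Nat.cast_nonneg _
  have hnpos : (0 : ℝ) < (n : ℝ) ^ 4 := by
    by_contra h
    have h' : (n : ℝ) ^ 4 ≤ 0 := not_lt.1 h
    have h0 : (n : ℝ) ^ 4 = 0 := le_antisymm h' (by positivity)
    rw [h0, mul_zero] at hcon
    linarith
  have hn : (0 : ℝ) < n := by
    by_contra h
    have h0 : (n : ℝ) = 0 := le_antisymm (not_lt.1 h) (Nat.cast_nonneg _)
    rw [h0] at hnpos
    norm_num at hnpos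
  have hk1 : (2 / ε : ℝ) ≤ (⌈2 / ε⌉₊ : ℝ) := Nat.le_ceil _
  have hk2 : ((⌈2 / ε⌉₊ : ℕ) : ℝ) < 2 / ε + 1 := Nat.ceil_lt_add_one (by positivity)
  have hk3 : ((⌈2 / ε⌉₊ : ℕ) : ℝ) ≤ 3 / ε := by
    have h1 : (1 : ℝ) ≤ 1 / ε := by
      rw [le_div_iff₀ hε]
      linarith
    have e : (3 : ℝ) / ε = 2 / ε + 1 / ε := by ring
    rw [e]
    linarith
  have hkε : 2 ≤ ((⌈2 / ε⌉₊ : ℕ) : ℝ) * ε := by
    have h := mul_le_mul_of_nonneg_right hk1 hε.le
    rwa [div_mul_cancel₀ _ hε.ne'] at h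
  have hkpos : 1 ≤ ⌈2 / ε⌉₊ := by
    by_contra h
    have h0 : ⌈2 / ε⌉₊ = 0 := by omega
    rw [h0] at hkε
    norm_num at hkε
  obtain ⟨k, hkdef⟩ : ∃ k : ℕ, k = ⌈2 / ε⌉₊ := ⟨_, rfl⟩
  rw [← hkdef] at hk3 hkε hkpos
  have hMnat : 5 * k * (400 * k ^ 2) * (400 * k ^ 2 + 1) ≤ 802000 * k ^ 5 := by
    have h1 : 400 * k ^ 2 + 1 ≤ 401 * k ^ 2 := by
      have : 1 ≤ k ^ 2 := Nat.one_le_pow _ _ hkpos
      omega
    calc 5 * k * (400 * k ^ 2) * (400 * k ^ 2 + 1)
        ≤ 5 * k * (400 * k ^ 2) * (401 * k ^ 2) := Nat.mul_le_mul_left _ h1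
      _ = 802000 * k ^ 5 := by ring
  have hnat : numCopies ePattern A * (5 * k * (400 * k ^ 2) * (400 * k ^ 2 + 1)) ^ 4
      ≤ n ^ 4 := by
    have hM4 : (5 * k * (400 * k ^ 2) * (400 * k ^ 2 + 1)) ^ 4 ≤ (802000 * k ^ 5) ^ 4 :=
      Nat.pow_le_pow_left hMnat 4
    refine le_trans (Nat.mul_le_mul_left _ hM4) ?_
    have hr : ((numCopies ePattern A * (802000 * k ^ 5) ^ 4 : ℕ) : ℝ) ≤ ((n ^ 4 : ℕ) : ℝ) := by
      have ec1 : ((numCopies ePattern A * (802000 * k ^ 5) ^ 4 : ℕ) : ℝ)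
          = (numCopies ePattern A : ℝ) * (802000 ^ 4 * (k : ℝ) ^ 20) := by
        push_cast
        ring
      have ec2 : ((n ^ 4 : ℕ) : ℝ) = (n : ℝ) ^ 4 := by
        push_cast
        ring
      rw [ec1, ec2]
      have h1 : (k : ℝ) ^ 20 ≤ (3 / ε) ^ 20 :=
        pow_le_pow_left₀ (Nat.cast_nonneg _) hk3 20
      have h2 : (ε / 46) ^ 20 * (3 / ε) ^ 20 = 3 ^ 20 / 46 ^ 20 := by
        rw [← mul_pow]
        have e : ε / 46 * (3 / ε) = 3 / 46 := by
          field_simp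
        rw [e]
        norm_num
      have hlt : (numCopies ePattern A : ℝ) * (802000 ^ 4 * (k : ℝ) ^ 20) < (n : ℝ) ^ 4 := by
        calc (numCopies ePattern A : ℝ) * (802000 ^ 4 * (k : ℝ) ^ 20)
            ≤ (numCopies ePattern A : ℝ) * (802000 ^ 4 * (3 / ε) ^ 20) := by gcongr
          _ ≤ ((ε / 46) ^ 20 * (n : ℝ) ^ 4) * (802000 ^ 4 * (3 / ε) ^ 20) := by
              have hp : (0 : ℝ) ≤ 802000 ^ 4 * (3 / ε) ^ 20 := by positivity
              exact mul_le_mul_of_nonneg_right hcon.le hp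
          _ = (n : ℝ) ^ 4 * (802000 ^ 4 * ((ε / 46) ^ 20 * (3 / ε) ^ 20)) := by ring
          _ = (n : ℝ) ^ 4 * (802000 ^ 4 * (3 ^ 20 / 46 ^ 20)) := by rw [h2]
          _ < (n : ℝ) ^ 4 * 1 := by
              apply mul_lt_mul_of_pos_left _ hnpos
              norm_num
          _ = (n : ℝ) ^ 4 := mul_one _
      exact hlt.le
    exact_mod_cast hr
  obtain ⟨B, hB0, hBd⟩ := E_nat n k hkpos A hnat
  have h1 := hfar B hB0
  have h2 : (k : ℝ) * (numDiff A B : ℝ) ≤ (n : ℝ) ^ 2 := by exact_mod_cast hBd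
  have h3 : (k : ℝ) * (ε * (n : ℝ) ^ 2) ≤ (k : ℝ) * (numDiff A B : ℝ) :=
    mul_le_mul_of_nonneg_left h1 (Nat.cast_nonneg _)
  have h4 : 2 * (n : ℝ) ^ 2 ≤ (k : ℝ) * ε * (n : ℝ) ^ 2 :=
    mul_le_mul_of_nonneg_right hkε (by positivity)
  have h5 : (k : ℝ) * ε * (n : ℝ) ^ 2 = (k : ℝ) * (ε * (n : ℝ) ^ 2) := by ring
  have h6 : (0 : ℝ) < (n : ℝ) ^ 2 := by positivity
  linarith

end Vale.Agent.Lib.P037
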