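import Mathlib

namespace Vale.Agent.Lib.P037.EPat

open Finset

set_option linter.unusedSectionVars false

variable {α β : Type} [Fintype α] [Fintype β] [LinearOrder α] [LinearOrder β]

/-- pairs of columns of row `u` that do not occur together in any row of `R` above `u` -/
def UN (S : α → Finset β) (R : Finset α) (u : α) : ℕ :=
  ((S u ×ˢ S u).filter
    (fun p => p.1 < p.2 ∧ ∀ ρ ∈ R, ρ < u → ¬ (p.1 ∈ S ρ ∧ p.2 ∈ S ρ))).card

/-- averaging a function of one coordinate, general index type -/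
theorem sum_coord_gen {ι : Type} [Fintype ι] [DecidableEq ι] (k : ι) (g : α → ℕ) :
    Fintype.card α * ∑ s : ι → α, g (s k) = Fintype.card (ι → α) * ∑ a, g a := by
  have h1 : ∑ s : ι → α, g (s k) = ∑ x : α × ({j // j ≠ k} → α), g x.1 :=
    Fintype.sum_equiv (Equiv.funSplitAt k α) _ _ (fun s => rfl)
  have h2 : Fintype.card (ι → α) = Fintype.card α * Fintype.card ({j // j ≠ k} → α) := by
    rw [Fintype.card_congr (Equiv.funSplitAt k α), Fintype.card_prod]
  rw [h1, h2, Fintype.sum_prod_type]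
  simp only [Finset.sum_const, Finset.card_univ, smul_eq_mul]
  rw [← Finset.mul_sum]
  ring

/-- A1: averaging a function of one coordinate of the sample -/
theorem sum_coord (q : ℕ) (k : Fin q) (g : α → ℕ) :
    Fintype.card α * ∑ s : Fin q → α, g (s k) = Fintype.card α ^ q * ∑ a, g a := by
  rw [sum_coord_gen k g, Fintype.card_fun, Fintype.card_fin]

/-- A2: averaging a function of two different coordinates of the sample -/
theorem sum_coord2 (q : ℕ) (k l : Fin q) (hkl : k ≠ l) (F : α → α → ℕ) :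
    Fintype.card α ^ 2 * ∑ s : Fin q → α, F (s k) (s l)
      = Fintype.card α ^ q * ∑ a, ∑ b, F a b := by
  have h1 : ∑ s : Fin q → α, F (s k) (s l)
      = ∑ x : α × ({j // j ≠ k} → α), F x.1 (x.2 ⟨l, hkl.symm⟩) :=
    Fintype.sum_equiv (Equiv.funSplitAt k α) _ _ (fun s => rfl)
  have h2 : Fintype.card α ^ q = Fintype.card α * Fintype.card ({j // j ≠ k} → α) := by
    have e : Fintype.card (Fin q → α) = Fintype.card α ^ q := by
      rw [Fintype.card_fun, Fintype.card_fin]
    rw [← e, Fintype.card_congr (Equiv.funSplitAt k α), Fintype.card_prod]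
  rw [h1, h2, Fintype.sum_prod_type]
  have h3 : ∀ a : α, Fintype.card α * ∑ r : {j // j ≠ k} → α, F a (r ⟨l, hkl.symm⟩)
      = Fintype.card ({j // j ≠ k} → α) * ∑ b, F a b :=
    fun a => sum_coord_gen (⟨l, hkl.symm⟩ : {j // j ≠ k}) (F a)
  calc Fintype.card α ^ 2 * ∑ a, ∑ r : {j // j ≠ k} → α, F a (r ⟨l, hkl.symm⟩)
      = Fintype.card α * ∑ a, (Fintype.card α *
          ∑ r : {j // j ≠ k} → α, F a (r ⟨l, hkl.symm⟩)) := by
        rw [← Finset.mul_sum]
        ring
    _ = Fintype.card α * ∑ a, (Fintype.card ({j // j ≠ k} → α) * ∑ b, F a b) := by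
        rw [Finset.sum_congr rfl (fun a _ => h3 a)]
    _ = Fintype.card α * Fintype.card ({j // j ≠ k} → α) * ∑ a, ∑ b, F a b := by
        rw [← Finset.mul_sum]
        ring

/-- A3: the number of samples avoiding a set -/
theorem card_avoid (q : ℕ) (J : Finset α) :
    (univ.filter (fun s : Fin q → α => ∀ k, s k ∉ J)).card = (Fintype.card α - J.card) ^ q := by
  have e : univ.filter (fun s : Fin q → α => ∀ k, s k ∉ J)
      = Fintype.piFinset (fun _ : Fin q => Jᶜ) := by
    ext s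
    rw [mem_filter, Fintype.mem_piFinset]
    simp
  rw [e, Fintype.card_piFinset, Finset.prod_const, Finset.card_univ, Fintype.card_fin,
    Finset.card_compl]

/-- A4: sum over a finite linearly ordered set of a function of the rank -/
theorem sum_rank (C : Finset α) (g : ℕ → ℕ) :
    ∑ u ∈ C, g ((C.filter (fun v => v < u)).card) = ∑ j ∈ range C.card, g j := by
  induction C using Finset.induction_on_max with
  | empty => simp
  | insert a s hmax ih =>
    have ha : a ∉ s := fun h => lt_irrefl a (hmax a h)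
    rw [Finset.sum_insert ha, Finset.card_insert_of_notMem ha, Finset.sum_range_succ, add_comm]
    congr 1
    · rw [← ih]
      refine Finset.sum_congr rfl (fun u hu => ?_)
      congr 2
      ext v
      simp only [mem_filter, mem_insert]
      constructor
      · rintro ⟨rfl | hv, hvu⟩
        · exact absurd hvu (not_lt.2 (hmax u hu).le)
        · exact ⟨hv, hvu⟩
      · rintro ⟨hv, hvu⟩
        exact ⟨Or.inr hv, hvu⟩
    · congr 2
      ext v
      simp only [mem_filter, mem_insert]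
      constructor
      · rintro ⟨rfl | hv, hvu⟩
        · exact absurd hvu (lt_irrefl _)
        · exact hv
      · intro hv
        exact ⟨Or.inr hv, hmax v hv⟩

/-- A5: total number of unseen pairs, summed over all samples -/
theorem sum_unseen (S : α → Finset β) (q : ℕ) :
    ∑ s : Fin q → α, ∑ u, UN S (univ.image s) u
      ≤ Fintype.card β ^ 2 * ∑ j ∈ range (Fintype.card α), (Fintype.card α - j) ^ q := by
  have hUN : ∀ (s : Fin q → α) (u : α), UN S (univ.image s) u
      = ∑ p : β × β, (if (p.1 ∈ S u ∧ p.2 ∈ S u ∧ p.1 < p.2) ∧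
          (∀ k, s k ∉ univ.filter (fun ρ => ρ < u ∧ p.1 ∈ S ρ ∧ p.2 ∈ S ρ)) then 1 else 0) := by
    intro s u
    unfold UN
    rw [← Finset.card_filter]
    congr 1
    ext p
    simp only [mem_filter, mem_product, mem_univ, true_and, mem_image]
    constructor
    · rintro ⟨⟨h1, h2⟩, h3, h4⟩
      refine ⟨⟨h1, h2, h3⟩, ?_⟩
      intro k hk
      exact h4 (s k) ⟨k, rfl⟩ hk.1 hk.2
    · rintro ⟨⟨h1, h2, h3⟩, h4⟩
      refine ⟨⟨h1, h2⟩, h3, ?_⟩
      rintro ρ ⟨k, rfl⟩ hρu hboth
      exact h4 k ⟨hρu, hboth⟩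
  have hswap : ∑ s : Fin q → α, ∑ u, UN S (univ.image s) u
      = ∑ p : β × β, ∑ u, ∑ s : Fin q → α,
          (if (p.1 ∈ S u ∧ p.2 ∈ S u ∧ p.1 < p.2) ∧
          (∀ k, s k ∉ univ.filter (fun ρ => ρ < u ∧ p.1 ∈ S ρ ∧ p.2 ∈ S ρ)) then 1 else 0) := by
    calc ∑ s : Fin q → α, ∑ u, UN S (univ.image s) u
        = ∑ s : Fin q → α, ∑ u, ∑ p : β × β,
          (if (p.1 ∈ S u ∧ p.2 ∈ S u ∧ p.1 < p.2) ∧
          (∀ k, s k ∉ univ.filter (fun ρ => ρ < u ∧ p.1 ∈ S ρ ∧ p.2 ∈ S ρ)) then 1 else 0) :=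
          Finset.sum_congr rfl (fun s _ => Finset.sum_congr rfl (fun u _ => hUN s u))
      _ = ∑ s : Fin q → α, ∑ p : β × β, ∑ u,
          (if (p.1 ∈ S u ∧ p.2 ∈ S u ∧ p.1 < p.2) ∧
          (∀ k, s k ∉ univ.filter (fun ρ => ρ < u ∧ p.1 ∈ S ρ ∧ p.2 ∈ S ρ)) then 1 else 0) :=
          Finset.sum_congr rfl (fun s _ => Finset.sum_comm)
      _ = ∑ p : β × β, ∑ s : Fin q → α, ∑ u,
          (if (p.1 ∈ S u ∧ p.2 ∈ S u ∧ p.1 < p.2) ∧
          (∀ k, s k ∉ univ.filter (fun ρ => ρ < u ∧ p.1 ∈ S ρ ∧ p.2 ∈ S ρ)) then 1 else 0) :=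
          Finset.sum_comm
      _ = ∑ p : β × β, ∑ u, ∑ s : Fin q → α,
          (if (p.1 ∈ S u ∧ p.2 ∈ S u ∧ p.1 < p.2) ∧
          (∀ k, s k ∉ univ.filter (fun ρ => ρ < u ∧ p.1 ∈ S ρ ∧ p.2 ∈ S ρ)) then 1 else 0) :=
          Finset.sum_congr rfl (fun p _ => Finset.sum_comm)
  rw [hswap]
  have hp : ∀ p : β × β, ∑ u, ∑ s : Fin q → α,
      (if (p.1 ∈ S u ∧ p.2 ∈ S u ∧ p.1 < p.2) ∧
        (∀ k, s k ∉ univ.filter (fun ρ => ρ < u ∧ p.1 ∈ S ρ ∧ p.2 ∈ S ρ)) then 1 else 0)
      ≤ ∑ j ∈ range (Fintype.card α), (Fintype.card α - j) ^ q := by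
    intro p
    have hin : ∀ u : α, ∑ s : Fin q → α,
        (if (p.1 ∈ S u ∧ p.2 ∈ S u ∧ p.1 < p.2) ∧
          (∀ k, s k ∉ univ.filter (fun ρ => ρ < u ∧ p.1 ∈ S ρ ∧ p.2 ∈ S ρ)) then 1 else 0)
        = if (p.1 ∈ S u ∧ p.2 ∈ S u ∧ p.1 < p.2) then
            (Fintype.card α - (univ.filter (fun ρ => ρ < u ∧ p.1 ∈ S ρ ∧ p.2 ∈ S ρ)).card) ^ q
          else 0 := by
      intro u
      by_cases hA : p.1 ∈ S u ∧ p.2 ∈ S u ∧ p.1 < p.2
      · rw [if_pos hA, ← card_avoid q, Finset.card_filter]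
        refine Finset.sum_congr rfl (fun s _ => ?_)
        simp only [hA, true_and]
      · rw [if_neg hA]
        refine Finset.sum_eq_zero (fun s _ => ?_)
        rw [if_neg]
        exact fun h => hA h.1
    rw [Finset.sum_congr rfl (fun u _ => hin u), ← Finset.sum_filter]
    by_cases hlt : p.1 < p.2
    · have hC : ∀ u ∈ univ.filter (fun u => p.1 ∈ S u ∧ p.2 ∈ S u ∧ p.1 < p.2),
          (Fintype.card α - (univ.filter (fun ρ => ρ < u ∧ p.1 ∈ S ρ ∧ p.2 ∈ S ρ)).card) ^ q
          = (Fintype.card α - (((univ.filter (fun u => p.1 ∈ S u ∧ p.2 ∈ S u ∧ p.1 < p.2)).filter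
                (fun v => v < u)).card)) ^ q := by
        intro u _
        congr 3
        ext ρ
        simp only [mem_filter, mem_univ, true_and]
        tauto
      have hr := sum_rank (univ.filter (fun u => p.1 ∈ S u ∧ p.2 ∈ S u ∧ p.1 < p.2))
        (fun j => (Fintype.card α - j) ^ q)
      rw [Finset.sum_congr rfl hC, hr]
      refine Finset.sum_le_sum_of_subset ?_
      exact Finset.range_mono (Finset.card_le_univ _)
    · have hemp : univ.filter (fun u => p.1 ∈ S u ∧ p.2 ∈ S u ∧ p.1 < p.2) = ∅ := by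
        rw [Finset.filter_eq_empty_iff]
        intro u _ h
        exact hlt h.2.2
      rw [hemp, Finset.sum_empty]
      exact Nat.zero_le _
  calc ∑ p : β × β, ∑ u, ∑ s : Fin q → α,
        (if (p.1 ∈ S u ∧ p.2 ∈ S u ∧ p.1 < p.2) ∧
          (∀ k, s k ∉ univ.filter (fun ρ => ρ < u ∧ p.1 ∈ S ρ ∧ p.2 ∈ S ρ)) then 1 else 0)
      ≤ ∑ _p : β × β, ∑ j ∈ range (Fintype.card α), (Fintype.card α - j) ^ q :=
        Finset.sum_le_sum (fun p _ => hp p)
    _ = Fintype.card β ^ 2 * ∑ j ∈ range (Fintype.card α), (Fintype.card α - j) ^ q := by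
        rw [Finset.sum_const, smul_eq_mul, Finset.card_univ, Fintype.card_prod, sq]

theorem bern (n q : ℕ) : n ^ (q + 1) + (q + 1) * n ^ q ≤ (n + 1) ^ (q + 1) := by
  induction q with
  | zero => simp
  | succ q ih =>
    calc n ^ (q + 1 + 1) + (q + 1 + 1) * n ^ (q + 1)
        ≤ (n + 1) * (n ^ (q + 1) + (q + 1) * n ^ q) := by
          have e : (n + 1) * (n ^ (q + 1) + (q + 1) * n ^ q)
              = n ^ (q + 1 + 1) + (q + 1 + 1) * n ^ (q + 1) + (q + 1) * n ^ q := by ring
          rw [e]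
          exact Nat.le_add_right _ _
      _ ≤ (n + 1) * (n + 1) ^ (q + 1) := Nat.mul_le_mul_left _ ih
      _ = (n + 1) ^ (q + 1 + 1) := by ring

/-- A6: power sum bound -/
theorem pow_sum_bound (q n : ℕ) :
    (q + 1) * ∑ j ∈ range n, (n - j) ^ q ≤ n ^ q * (n + q + 1) := by
  induction n with
  | zero => simp
  | succ n ih =>
    have e : ∑ j ∈ range (n + 1), (n + 1 - j) ^ q
        = ∑ j ∈ range n, (n - j) ^ q + (n + 1) ^ q := by
      rw [Finset.sum_range_succ']
      simp
    rw [e]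
    have hb := bern n q
    calc (q + 1) * (∑ j ∈ range n, (n - j) ^ q + (n + 1) ^ q)
        = (q + 1) * ∑ j ∈ range n, (n - j) ^ q + (q + 1) * (n + 1) ^ q := by ring
      _ ≤ n ^ q * (n + q + 1) + (q + 1) * (n + 1) ^ q := Nat.add_le_add_right ih _
      _ = (n ^ (q + 1) + (q + 1) * n ^ q) + (q + 1) * (n + 1) ^ q := by ring
      _ ≤ (n + 1) ^ (q + 1) + (q + 1) * (n + 1) ^ q := Nat.add_le_add_right hb _
      _ = (n + 1) ^ q * (n + 1 + q + 1) := by ring

/-- A7: three-way Markov inequality -/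
theorem markov3 {ι : Type} [Fintype ι] [Nonempty ι] (f1 f2 f3 : ι → ℕ) (t1 t2 t3 : ℕ)
    (h1 : 3 * ∑ s, f1 s ≤ Fintype.card ι * t1) (h2 : 3 * ∑ s, f2 s ≤ Fintype.card ι * t2)
    (h3 : 3 * ∑ s, f3 s ≤ Fintype.card ι * t3) :
    ∃ s, f1 s ≤ t1 ∧ f2 s ≤ t2 ∧ f3 s ≤ t3 := by
  classical
  by_contra hcon
  have hN : 0 < Fintype.card ι := Fintype.card_pos
  have key : ∀ (f : ι → ℕ) (t : ℕ), 3 * ∑ s, f s ≤ Fintype.card ι * t →
      3 * (univ.filter (fun s => t < f s)).card < Fintype.card ι := by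
    intro f t h
    have hm : (univ.filter (fun s => t < f s)).card * (t + 1) ≤ ∑ s, f s := by
      calc (univ.filter (fun s => t < f s)).card * (t + 1)
          = ∑ _s ∈ univ.filter (fun s => t < f s), (t + 1) := by
            rw [Finset.sum_const, smul_eq_mul]
        _ ≤ ∑ s ∈ univ.filter (fun s => t < f s), f s := by
            refine Finset.sum_le_sum (fun s hs => ?_)
            rw [mem_filter] at hs
            exact hs.2
        _ ≤ ∑ s, f s := Finset.sum_le_sum_of_subset (Finset.subset_univ _)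
    have h' : 3 * (univ.filter (fun s => t < f s)).card * (t + 1)
        < Fintype.card ι * (t + 1) := by
      calc 3 * (univ.filter (fun s => t < f s)).card * (t + 1)
          = 3 * ((univ.filter (fun s => t < f s)).card * (t + 1)) := by ring
        _ ≤ 3 * ∑ s, f s := Nat.mul_le_mul_left _ hm
        _ ≤ Fintype.card ι * t := h
        _ < Fintype.card ι * (t + 1) := Nat.mul_lt_mul_of_pos_left (Nat.lt_succ_self t) hN
    exact Nat.lt_of_mul_lt_mul_right h'
  have k1 := key f1 t1 h1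
  have k2 := key f2 t2 h2
  have k3 := key f3 t3 h3
  have hcov : (univ : Finset ι) ⊆ (univ.filter (fun s => t1 < f1 s)
      ∪ univ.filter (fun s => t2 < f2 s)) ∪ univ.filter (fun s => t3 < f3 s) := by
    intro s _
    by_contra hs
    rw [mem_union, mem_union, mem_filter, mem_filter, mem_filter] at hs
    apply hcon
    refine ⟨s, ?_, ?_, ?_⟩
    · by_contra h
      exact hs (Or.inl (Or.inl ⟨mem_univ s, not_le.1 h⟩))
    · by_contra h
      exact hs (Or.inl (Or.inr ⟨mem_univ s, not_le.1 h⟩))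
    · by_contra h
      exact hs (Or.inr ⟨mem_univ s, not_le.1 h⟩)
  have c1 := Finset.card_le_card hcov
  have c2 := Finset.card_union_le (univ.filter (fun s => t1 < f1 s)
      ∪ univ.filter (fun s => t2 < f2 s)) (univ.filter (fun s => t3 < f3 s))
  have c3 := Finset.card_union_le (univ.filter (fun s => t1 < f1 s))
      (univ.filter (fun s => t2 < f2 s))
  rw [Finset.card_univ] at c1
  omega

theorem sum_range_sub (m : ℕ) : 2 * ∑ j ∈ range m, (m - j) = m * (m + 1) := by
  induction m with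
  | zero => simp
  | succ k ih =>
    have h : ∑ j ∈ range (k + 1), (k + 1 - j) = ∑ j ∈ range k, (k - j) + (k + 1) := by
      rw [Finset.sum_range_succ]
      have h1 : ∑ j ∈ range k, (k + 1 - j) = ∑ j ∈ range k, ((k - j) + 1) := by
        refine Finset.sum_congr rfl (fun j hj => ?_)
        rw [mem_range] at hj
        omega
      rw [h1, Finset.sum_add_distrib, Finset.sum_const, Finset.card_range, smul_eq_mul]
      omega
    rw [h, mul_add, ih]
    ring

/-- A8: truncation lemma -/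
theorem trunc (Z : Finset β) (f : β → ℕ) :
    ∃ m : ℕ, m * (m + 1) ≤ 2 * ∑ x ∈ Z, f x ∧
      (Z.card ≤ m ∨ ∃ x ∈ Z, (Z.filter (fun y => y < x)).card + f x ≤ m) := by
  classical
  have hne : (insert Z.card (Z.image (fun x => (Z.filter (fun y => y < x)).card + f x))).Nonempty :=
    Finset.insert_nonempty _ _
  obtain ⟨m, hm⟩ : ∃ m, m = (insert Z.card
      (Z.image (fun x => (Z.filter (fun y => y < x)).card + f x))).min' hne := ⟨_, rfl⟩
  have hmem : m ∈ insert Z.card (Z.image (fun x => (Z.filter (fun y => y < x)).card + f x)) := by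
    rw [hm]
    exact Finset.min'_mem _ hne
  have hle1 : m ≤ Z.card := by
    rw [hm]
    exact Finset.min'_le _ _ (Finset.mem_insert_self _ _)
  have hle2 : ∀ x ∈ Z, m ≤ (Z.filter (fun y => y < x)).card + f x := by
    intro x hx
    rw [hm]
    exact Finset.min'_le _ _ (Finset.mem_insert_of_mem (Finset.mem_image_of_mem _ hx))
  refine ⟨m, ?_, ?_⟩
  · have h1 : ∑ j ∈ range m, (m - j) ≤ ∑ x ∈ Z, f x := by
      calc ∑ j ∈ range m, (m - j) ≤ ∑ j ∈ range Z.card, (m - j) :=
            Finset.sum_le_sum_of_subset (Finset.range_mono hle1)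
        _ = ∑ x ∈ Z, (m - (Z.filter (fun y => y < x)).card) :=
            (sum_rank Z (fun j => m - j)).symm
        _ ≤ ∑ x ∈ Z, f x := by
            refine Finset.sum_le_sum (fun x hx => ?_)
            have := hle2 x hx
            omega
    rw [← sum_range_sub m]
    exact Nat.mul_le_mul_left 2 h1
  · rw [mem_insert, mem_image] at hmem
    rcases hmem with h | ⟨x, hx, h⟩
    · left
      exact le_of_eq h.symm
    · right
      exact ⟨x, hx, le_of_eq h⟩

end Vale.Agent.Lib.P037.EPat
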