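import Vale.Agent.Lib.P037.EPat.Forest
import Vale.Agent.Lib.P037.EPat.Avg

namespace Vale.Agent.Lib.P037.EPat

open Finset

set_option linter.unusedSectionVars false

variable {α β : Type} [Fintype α] [Fintype β] [LinearOrder α] [LinearOrder β]

/-- size of the hitting set of an ordered pair of rows -/
noncomputable def hh (S : α → Finset β) (a b : α) : ℕ :=
  if a < b then (hit (S a) (S b)).card else 0

/-- columns deleted because of violations among the rows of `R` -/
noncomputable def Dset (S : α → Finset β) (R : Finset α) : Finset β :=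
  R.biUnion (fun a => R.biUnion (fun b => if a < b then hit (S a) (S b) else ∅))

/-- columns of row `u` in a hitting set against an earlier row of `R` -/
noncomputable def Pset (S : α → Finset β) (R : Finset α) (u : α) : Finset β :=
  (R.filter (fun ρ => ρ < u)).biUnion (fun ρ => hit (S ρ) (S u))

/-- number of rows whose `Pset` contains the column `z` -/
noncomputable def cnt (S : α → Finset β) (R : Finset α) (z : β) : ℕ :=
  (univ.filter (fun u => z ∈ Pset S R u)).card

/-- columns lying in many `Pset`s -/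
noncomputable def Bad (S : α → Finset β) (R : Finset α) (L : ℕ) : Finset β :=
  univ.filter (fun z => L ≤ cnt S R z)

/-- the cleaned rows -/
noncomputable def TT (S : α → Finset β) (R : Finset α) (L : ℕ) (u : α) : Finset β :=
  S u \ (Dset S R ∪ Bad S R L)

/-- the rows of `R` above `u` -/
def GG (R : Finset α) (u : α) : Finset α := R.filter (fun ρ => ρ < u)

variable {S : α → Finset β} {R : Finset α} {L : ℕ}

theorem mem_Dset {z : β} :
    z ∈ Dset S R ↔ ∃ a ∈ R, ∃ b ∈ R, a < b ∧ z ∈ hit (S a) (S b) := by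
  unfold Dset
  simp only [mem_biUnion]
  constructor
  · rintro ⟨a, ha, b, hb, h⟩
    by_cases hab : a < b
    · rw [if_pos hab] at h
      exact ⟨a, ha, b, hb, hab, h⟩
    · rw [if_neg hab] at h
      exact absurd h (notMem_empty _)
  · rintro ⟨a, ha, b, hb, hab, h⟩
    refine ⟨a, ha, b, hb, ?_⟩
    rw [if_pos hab]
    exact h

theorem mem_Pset {u : α} {z : β} :
    z ∈ Pset S R u ↔ ∃ ρ ∈ R, ρ < u ∧ z ∈ hit (S ρ) (S u) := by
  unfold Pset
  simp only [mem_biUnion, mem_filter]
  constructor
  · rintro ⟨ρ, ⟨h1, h2⟩, h3⟩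
    exact ⟨ρ, h1, h2, h3⟩
  · rintro ⟨ρ, h1, h2, h3⟩
    exact ⟨ρ, ⟨h1, h2⟩, h3⟩

theorem mem_TT {u : α} {z : β} :
    z ∈ TT S R L u ↔ z ∈ S u ∧ z ∉ Dset S R ∧ z ∉ Bad S R L := by
  unfold TT
  rw [mem_sdiff, mem_union]
  tauto

theorem mem_GG {u ρ : α} : ρ ∈ GG R u ↔ ρ ∈ R ∧ ρ < u := by
  unfold GG
  rw [mem_filter]

theorem GG_mono (R : Finset α) {u v : α} (huv : u ≤ v) : GG R u ⊆ GG R v := by
  intro ρ hρ
  rw [mem_GG] at hρ ⊢
  exact ⟨hρ.1, lt_of_lt_of_le hρ.2 huv⟩

theorem GG_subset (R : Finset α) (u : α) : GG R u ⊆ R := Finset.filter_subset _ _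

theorem exact_TT (S : α → Finset β) (R : Finset α) (L : ℕ) : Exact (TT S R L) R := by
  intro a ha b hb hab c d hcd hca hda hcb
  rw [mem_TT] at hca hda hcb ⊢
  refine ⟨?_, hda.2.1, hda.2.2⟩
  by_contra hdb
  rcases hit_cover (S a) (S b) c d hcd hca.1 hcb.1 hda.1 hdb with h | h
  · exact hca.2.1 (mem_Dset.2 ⟨a, ha, b, hb, hab, h⟩)
  · exact hda.2.1 (mem_Dset.2 ⟨a, ha, b, hb, hab, h⟩)

theorem cover_TT {u ρ : α} (hρ : ρ ∈ R) (hρu : ρ < u) {c d : β} (hcd : c < d)
    (hc : c ∈ TT S R L ρ) (hd : d ∈ TT S R L ρ) (hcu : c ∈ S u) :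
    d ∈ S u ∨ c ∈ Pset S R u ∨ d ∈ Pset S R u := by
  by_contra hcon
  rw [not_or, not_or] at hcon
  rcases hit_cover (S ρ) (S u) c d hcd (mem_TT.1 hc).1 hcu (mem_TT.1 hd).1 hcon.1 with h | h
  · exact hcon.2.1 (mem_Pset.2 ⟨ρ, hρ, hρu, h⟩)
  · exact hcon.2.2 (mem_Pset.2 ⟨ρ, hρ, hρu, h⟩)

/-- row `u` is broken if its `Pset` contains an entry node of the forest above it -/
def Broken (S : α → Finset β) (R : Finset α) (L : ℕ) (u : α) : Prop :=
  ∃ z ∈ Pset S R u, Entry (TT S R L) (GG R u) z

open Classical in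
/-- the set of broken rows -/
noncomputable def Br (S : α → Finset β) (R : Finset α) (L : ℕ) : Finset α :=
  univ.filter (fun u => Broken S R L u)

theorem mem_Br {u : α} : u ∈ Br S R L ↔ Broken S R L u := by
  classical
  unfold Br
  simp

theorem row_lemma (S : α → Finset β) (R : Finset α) (L : ℕ) (u : α) :
    ∃ (B : Finset β) (m : ℕ), (B = ∅ ∨ ∃ x, B = rootPath (TT S R L) (GG R u) x) ∧
      (symmDiff (S u) B).card ≤ (S u ∩ (Dset S R ∪ Bad S R L)).card
        + 2 * (Pset S R u).card + m + (if u ∈ Br S R L then Fintype.card β else 0) ∧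
      m * (m + 1) ≤ 2 * UN S R u := by
  classical
  by_cases hbr : u ∈ Br S R L
  · refine ⟨∅, 0, Or.inl rfl, ?_, by simp⟩
    rw [if_pos hbr]
    have h1 : symmDiff (S u) ∅ = S u := symmDiff_bot (S u)
    rw [h1]
    have h2 : (S u).card ≤ Fintype.card β := Finset.card_le_univ _
    omega
  · rw [if_neg hbr]
    have hnb : ¬ Broken S R L u := fun h => hbr (mem_Br.2 h)
    have hmemZ : ∀ y, y ∈ TT S R L u \ Pset S R u ↔
        y ∈ S u ∧ y ∉ Dset S R ∧ y ∉ Bad S R L ∧ y ∉ Pset S R u := by
      intro y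
      rw [mem_sdiff, mem_TT]
      tauto
    obtain ⟨m, hm, hcase⟩ := trunc (TT S R L u \ Pset S R u)
      (fun x => ((TT S R L u \ Pset S R u).filter
        (fun e => x < e ∧ ¬ Step (TT S R L) (GG R u) x e)).card)
    have hsum : ∑ x ∈ TT S R L u \ Pset S R u, ((TT S R L u \ Pset S R u).filter
        (fun e => x < e ∧ ¬ Step (TT S R L) (GG R u) x e)).card ≤ UN S R u := by
      have e1 : ∑ x ∈ TT S R L u \ Pset S R u, ((TT S R L u \ Pset S R u).filter
          (fun e => x < e ∧ ¬ Step (TT S R L) (GG R u) x e)).card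
          = (((TT S R L u \ Pset S R u) ×ˢ (TT S R L u \ Pset S R u)).filter
            (fun p => p.1 < p.2 ∧ ¬ Step (TT S R L) (GG R u) p.1 p.2)).card := by
        rw [Finset.card_filter, Finset.sum_product]
        refine Finset.sum_congr rfl (fun x _ => ?_)
        rw [Finset.card_filter]
      rw [e1]
      unfold UN
      apply Finset.card_le_card
      intro p hp
      rw [mem_filter, mem_product] at hp ⊢
      obtain ⟨⟨hp1, hp2⟩, hlt, hns⟩ := hp
      rw [hmemZ] at hp1 hp2
      refine ⟨⟨hp1.1, hp2.1⟩, hlt, ?_⟩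
      intro ρ hρ hρu hboth
      apply hns
      refine ⟨hlt, ρ, mem_GG.2 ⟨hρ, hρu⟩, ?_, ?_⟩
      · exact mem_TT.2 ⟨hboth.1, hp1.2.1, hp1.2.2.1⟩
      · exact mem_TT.2 ⟨hboth.2, hp2.2.1, hp2.2.2.1⟩
    have hm' : m * (m + 1) ≤ 2 * UN S R u := le_trans hm (Nat.mul_le_mul_left 2 hsum)
    rcases hcase with hc | ⟨x, hxZ, hx⟩
    · refine ⟨∅, m, Or.inl rfl, ?_, hm'⟩
      have h1 : symmDiff (S u) ∅ = S u := symmDiff_bot (S u)
      rw [h1]
      have hsub : S u ⊆ (S u ∩ (Dset S R ∪ Bad S R L)) ∪ Pset S R u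
          ∪ (TT S R L u \ Pset S R u) := by
        intro y hy
        by_cases h1 : y ∈ Dset S R ∪ Bad S R L
        · exact mem_union_left _ (mem_union_left _ (mem_inter.2 ⟨hy, h1⟩))
        · by_cases h2 : y ∈ Pset S R u
          · exact mem_union_left _ (mem_union_right _ h2)
          · refine mem_union_right _ ?_
            rw [hmemZ]
            rw [mem_union, not_or] at h1
            exact ⟨hy, h1.1, h1.2, h2⟩
      have h2 := Finset.card_le_card hsub
      have h3 := Finset.card_union_le ((S u ∩ (Dset S R ∪ Bad S R L)) ∪ Pset S R u)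
        (TT S R L u \ Pset S R u)
      have h4 := Finset.card_union_le (S u ∩ (Dset S R ∪ Bad S R L)) (Pset S R u)
      omega
    · refine ⟨rootPath (TT S R L) (GG R u) x, m, Or.inr ⟨x, rfl⟩, ?_, hm'⟩
      have hE : Exact (TT S R L) (GG R u) := (exact_TT S R L).mono (GG_subset R u)
      have hclosed := closed_of_no_entry hE (TT S R L u \ Pset S R u) (Pset S R u)
        (by
          intro ρ hρ c hcZ hcρ d hdρ hcd
          rw [mem_GG] at hρ
          rw [hmemZ] at hcZ
          by_cases hdP : d ∈ Pset S R u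
          · exact Or.inr hdP
          · left
            rcases cover_TT hρ.1 hρ.2 hcd hcρ hdρ hcZ.1 with h | h | h
            · rw [hmemZ]
              exact ⟨h, (mem_TT.1 hdρ).2.1, (mem_TT.1 hdρ).2.2, hdP⟩
            · exact absurd h hcZ.2.2.2
            · exact absurd h hdP)
        (by
          intro z hz hzP
          exact hnb ⟨z, hzP, hz⟩)
      -- the two differences
      have hsub1 : rootPath (TT S R L) (GG R u) x \ S u ⊆ Pset S R u := by
        intro d hd
        rw [mem_sdiff, mem_rootPath] at hd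
        obtain ⟨hd1, hd2⟩ := hd
        by_contra hdP
        rcases hd1 with rfl | hreach
        · exact hd2 ((hmemZ _).1 hxZ).1
        · exact hd2 ((hmemZ _).1 (hclosed x hxZ d hreach hdP)).1
      have hsub2 : S u \ rootPath (TT S R L) (GG R u) x ⊆
          ((S u ∩ (Dset S R ∪ Bad S R L)) ∪ Pset S R u)
          ∪ (((TT S R L u \ Pset S R u).filter (fun y => y < x))
            ∪ ((TT S R L u \ Pset S R u).filter
              (fun e => x < e ∧ ¬ Step (TT S R L) (GG R u) x e))) := by
        intro y hy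
        rw [mem_sdiff] at hy
        obtain ⟨hy1, hy2⟩ := hy
        by_cases h1 : y ∈ Dset S R ∪ Bad S R L
        · exact mem_union_left _ (mem_union_left _ (mem_inter.2 ⟨hy1, h1⟩))
        · by_cases h2 : y ∈ Pset S R u
          · exact mem_union_left _ (mem_union_right _ h2)
          · refine mem_union_right _ ?_
            rw [mem_union, not_or] at h1
            have hyZ : y ∈ TT S R L u \ Pset S R u := (hmemZ y).2 ⟨hy1, h1.1, h1.2, h2⟩
            rw [mem_rootPath, not_or] at hy2
            rcases lt_trichotomy y x with h | h | h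
            · exact mem_union_left _ (mem_filter.2 ⟨hyZ, h⟩)
            · exact absurd h hy2.1
            · refine mem_union_right _ (mem_filter.2 ⟨hyZ, h, ?_⟩)
              intro hstep
              exact hy2.2 (Relation.TransGen.single hstep)
      have e : symmDiff (S u) (rootPath (TT S R L) (GG R u) x)
          = (S u \ rootPath (TT S R L) (GG R u) x) ∪ (rootPath (TT S R L) (GG R u) x \ S u) :=
        symmDiff_def _ _
      rw [e]
      have c1 := Finset.card_union_le (S u \ rootPath (TT S R L) (GG R u) x)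
        (rootPath (TT S R L) (GG R u) x \ S u)
      have c2 := Finset.card_le_card hsub1
      have c3 := Finset.card_le_card hsub2
      have c4 := Finset.card_union_le ((S u ∩ (Dset S R ∪ Bad S R L)) ∪ Pset S R u)
        (((TT S R L u \ Pset S R u).filter (fun y => y < x))
            ∪ ((TT S R L u \ Pset S R u).filter
              (fun e => x < e ∧ ¬ Step (TT S R L) (GG R u) x e)))
      have c5 := Finset.card_union_le (S u ∩ (Dset S R ∪ Bad S R L)) (Pset S R u)
      have c6 := Finset.card_union_le ((TT S R L u \ Pset S R u).filter (fun y => y < x))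
        ((TT S R L u \ Pset S R u).filter
              (fun e => x < e ∧ ¬ Step (TT S R L) (GG R u) x e))
      omega

theorem build (S : α → Finset β) (R : Finset α) (L : ℕ) :
    ∃ (B : α → Finset β) (m : α → ℕ), EFree B ∧
      (∀ u, (symmDiff (S u) (B u)).card ≤ (S u ∩ (Dset S R ∪ Bad S R L)).card
        + 2 * (Pset S R u).card + m u + (if u ∈ Br S R L then Fintype.card β else 0)) ∧
      (∀ u, m u * (m u + 1) ≤ 2 * UN S R u) := by
  choose B m h1 h2 h3 using row_lemma S R L
  refine ⟨B, m, ?_, h2, h3⟩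
  exact efree_of_rootPaths (TT S R L) (GG R) (fun u v huv => GG_mono R huv)
    (fun u => (exact_TT S R L).mono (GG_subset R u)) B h1

end Vale.Agent.Lib.P037.EPat
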