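import Vale.Agent.Lib.P037.EPat.Build

namespace Vale.Agent.Lib.P037.EPat

open Finset

set_option linter.unusedSectionVars false

variable {α β : Type} [Fintype α] [Fintype β] [LinearOrder α] [LinearOrder β]

variable {S : α → Finset β} {R : Finset α} {L : ℕ}

/-- double counting: columns in many `Pset`s are few -/
theorem bad_card (S : α → Finset β) (R : Finset α) (L : ℕ) :
    L * (Bad S R L).card ≤ ∑ u, (Pset S R u).card := by
  have h1 : ∑ u, (Pset S R u).card = ∑ z, cnt S R z := by
    have h := Finset.sum_card_bipartiteAbove_eq_sum_card_bipartiteBelow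
      (fun (u : α) (z : β) => z ∈ Pset S R u) (s := univ) (t := univ)
    have e1 : ∀ u : α, (Finset.bipartiteAbove (fun (u : α) (z : β) => z ∈ Pset S R u) univ u)
        = Pset S R u := by
      intro u
      ext z
      simp [Finset.bipartiteAbove]
    have e2 : ∀ z : β, (Finset.bipartiteBelow (fun (u : α) (z : β) => z ∈ Pset S R u) univ z)
        = univ.filter (fun u => z ∈ Pset S R u) := by
      intro z
      rfl
    simp only [e1, e2] at h
    rw [h]
    rfl
  rw [h1]
  calc L * (Bad S R L).card = ∑ _z ∈ Bad S R L, L := by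
        rw [Finset.sum_const, smul_eq_mul, mul_comm]
    _ ≤ ∑ z ∈ Bad S R L, cnt S R z := by
        refine Finset.sum_le_sum (fun z hz => ?_)
        unfold Bad at hz
        rw [mem_filter] at hz
        exact hz.2
    _ ≤ ∑ z, cnt S R z := Finset.sum_le_sum_of_subset (Finset.subset_univ _)

/-- the sets `GG R u` form a chain with at most `R.card + 1` members -/
theorem GG_image_card (R : Finset α) : (univ.image (GG R)).card ≤ R.card + 1 := by
  have h := Finset.card_le_card_of_injOn (s := univ.image (GG R)) (t := range (R.card + 1))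
    (fun F => F.card) ?_ ?_
  · rw [Finset.card_range] at h
    exact h
  · intro F hF
    rw [mem_coe, mem_image] at hF
    obtain ⟨u, _, rfl⟩ := hF
    rw [mem_coe, mem_range]
    exact Nat.lt_succ_of_le (Finset.card_le_card (GG_subset R u))
  · intro F hF F' hF' hcard
    rw [mem_coe, mem_image] at hF hF'
    obtain ⟨u, _, rfl⟩ := hF
    obtain ⟨v, _, rfl⟩ := hF'
    simp only at hcard
    rcases le_total u v with h | h
    · exact Finset.eq_of_subset_of_card_le (GG_mono R h) (le_of_eq hcard.symm)
    · exact (Finset.eq_of_subset_of_card_le (GG_mono R h) (le_of_eq hcard)).symm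

/-- broken rows are few -/
theorem br_card (S : α → Finset β) (R : Finset α) (L : ℕ) :
    (Br S R L).card ≤ (R.card + 1) * (R.card * L) := by
  classical
  have hsub : Br S R L ⊆ (univ.image (GG R)).biUnion (fun F =>
      (univ.filter (fun z => Entry (TT S R L) F z)).biUnion
        (fun z => univ.filter (fun u => z ∈ Pset S R u))) := by
    intro u hu
    rw [mem_Br] at hu
    obtain ⟨z, hzP, hz⟩ := hu
    rw [mem_biUnion]
    refine ⟨GG R u, mem_image_of_mem _ (mem_univ u), ?_⟩
    rw [mem_biUnion]
    exact ⟨z, mem_filter.2 ⟨mem_univ z, hz⟩, mem_filter.2 ⟨mem_univ u, hzP⟩⟩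
  have hinner : ∀ F ∈ univ.image (GG R),
      ((univ.filter (fun z => Entry (TT S R L) F z)).biUnion
        (fun z => univ.filter (fun u => z ∈ Pset S R u))).card ≤ R.card * L := by
    intro F hF
    rw [mem_image] at hF
    obtain ⟨u, _, rfl⟩ := hF
    have hE : Exact (TT S R L) (GG R u) := (exact_TT S R L).mono (GG_subset R u)
    have hc1 : (univ.filter (fun z => Entry (TT S R L) (GG R u) z)).card ≤ R.card := by
      refine le_trans (entry_card hE _ ?_) (Finset.card_le_card (GG_subset R u))
      intro z hz
      rw [mem_filter] at hz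
      exact hz.2
    calc ((univ.filter (fun z => Entry (TT S R L) (GG R u) z)).biUnion
          (fun z => univ.filter (fun u => z ∈ Pset S R u))).card
        ≤ ∑ z ∈ univ.filter (fun z => Entry (TT S R L) (GG R u) z),
            (univ.filter (fun u => z ∈ Pset S R u)).card := Finset.card_biUnion_le
      _ ≤ ∑ _z ∈ univ.filter (fun z => Entry (TT S R L) (GG R u) z), L := by
          refine Finset.sum_le_sum (fun z hz => ?_)
          rw [mem_filter] at hz
          obtain ⟨v, ρ, ρ', _, _, _, _, hzρ, _⟩ := hz.2
          have hnb : z ∉ Bad S R L := (mem_TT.1 hzρ).2.2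
          unfold Bad at hnb
          rw [mem_filter, not_and] at hnb
          have := hnb (mem_univ z)
          unfold cnt at this
          omega
      _ = (univ.filter (fun z => Entry (TT S R L) (GG R u) z)).card * L := by
          rw [Finset.sum_const, smul_eq_mul]
      _ ≤ R.card * L := Nat.mul_le_mul_right L hc1
  calc (Br S R L).card
      ≤ ((univ.image (GG R)).biUnion (fun F =>
          (univ.filter (fun z => Entry (TT S R L) F z)).biUnion
            (fun z => univ.filter (fun u => z ∈ Pset S R u)))).card := Finset.card_le_card hsub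
    _ ≤ ∑ F ∈ univ.image (GG R), ((univ.filter (fun z => Entry (TT S R L) F z)).biUnion
            (fun z => univ.filter (fun u => z ∈ Pset S R u))).card := Finset.card_biUnion_le
    _ ≤ ∑ _F ∈ univ.image (GG R), R.card * L := Finset.sum_le_sum hinner
    _ = (univ.image (GG R)).card * (R.card * L) := by rw [Finset.sum_const, smul_eq_mul]
    _ ≤ (R.card + 1) * (R.card * L) := Nat.mul_le_mul_right _ (GG_image_card R)

/-- the cost of the construction for a fixed set `R` of sample rows -/
theorem build_cost (S : α → Finset β) (R : Finset α) (L : ℕ) :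
    ∃ (B : α → Finset β) (MS : ℕ), EFree B ∧
      MS ^ 2 ≤ Fintype.card α * (2 * ∑ u, UN S R u) ∧
      ∑ u, (symmDiff (S u) (B u)).card ≤
        Fintype.card α * ((Dset S R).card + (Bad S R L).card)
          + 2 * ∑ u, (Pset S R u).card + MS
          + Fintype.card β * ((R.card + 1) * (R.card * L)) := by
  obtain ⟨B, m, hB, hcost, hm⟩ := build S R L
  refine ⟨B, ∑ u, m u, hB, ?_, ?_⟩
  · calc (∑ u, m u) ^ 2 ≤ (univ : Finset α).card * ∑ u, m u ^ 2 := sq_sum_le_card_mul_sum_sq
      _ = Fintype.card α * ∑ u, m u ^ 2 := by rw [Finset.card_univ]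
      _ ≤ Fintype.card α * ∑ u, 2 * UN S R u := by
          refine Nat.mul_le_mul_left _ (Finset.sum_le_sum (fun u _ => ?_))
          have := hm u
          nlinarith
      _ = Fintype.card α * (2 * ∑ u, UN S R u) := by rw [← Finset.mul_sum]
  · calc ∑ u, (symmDiff (S u) (B u)).card
        ≤ ∑ u, ((S u ∩ (Dset S R ∪ Bad S R L)).card
            + 2 * (Pset S R u).card + m u + (if u ∈ Br S R L then Fintype.card β else 0)) :=
          Finset.sum_le_sum (fun u _ => hcost u)
      _ = ∑ u, (S u ∩ (Dset S R ∪ Bad S R L)).card + 2 * ∑ u, (Pset S R u).card + ∑ u, m u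
            + ∑ u, (if u ∈ Br S R L then Fintype.card β else 0) := by
          rw [Finset.sum_add_distrib, Finset.sum_add_distrib, Finset.sum_add_distrib,
            Finset.mul_sum]
      _ ≤ Fintype.card α * ((Dset S R).card + (Bad S R L).card)
            + 2 * ∑ u, (Pset S R u).card + ∑ u, m u
            + Fintype.card β * ((R.card + 1) * (R.card * L)) := by
          have h1 : ∑ u, (S u ∩ (Dset S R ∪ Bad S R L)).card
              ≤ Fintype.card α * ((Dset S R).card + (Bad S R L).card) := by
            calc ∑ u, (S u ∩ (Dset S R ∪ Bad S R L)).card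
                ≤ ∑ _u : α, ((Dset S R).card + (Bad S R L).card) := by
                  refine Finset.sum_le_sum (fun u _ => ?_)
                  exact le_trans (Finset.card_le_card Finset.inter_subset_right)
                    (Finset.card_union_le _ _)
              _ = Fintype.card α * ((Dset S R).card + (Bad S R L).card) := by
                  rw [Finset.sum_const, smul_eq_mul, Finset.card_univ]
          have h2 : ∑ u, (if u ∈ Br S R L then Fintype.card β else 0)
              ≤ Fintype.card β * ((R.card + 1) * (R.card * L)) := by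
            rw [← Finset.sum_filter]
            rw [Finset.sum_const, smul_eq_mul, mul_comm]
            refine Nat.mul_le_mul_left _ ?_
            refine le_trans (Finset.card_le_card ?_) (br_card S R L)
            intro u hu
            rw [mem_filter] at hu
            exact hu.2
          omega

/-- bound of `Dset` for the rows of a sample -/
theorem dset_card_le (S : α → Finset β) {q : ℕ} (s : Fin q → α) :
    (Dset S (univ.image s)).card ≤ ∑ k, ∑ l, hh S (s k) (s l) := by
  have hsub : Dset S (univ.image s) ⊆ (univ : Finset (Fin q)).biUnion (fun k =>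
      (univ : Finset (Fin q)).biUnion
        (fun l => if s k < s l then hit (S (s k)) (S (s l)) else ∅)) := by
    intro z hz
    rw [mem_Dset] at hz
    obtain ⟨a, ha, b, hb, hab, hz⟩ := hz
    rw [mem_image] at ha hb
    obtain ⟨k, _, rfl⟩ := ha
    obtain ⟨l, _, rfl⟩ := hb
    rw [mem_biUnion]
    refine ⟨k, mem_univ k, ?_⟩
    rw [mem_biUnion]
    refine ⟨l, mem_univ l, ?_⟩
    rw [if_pos hab]
    exact hz
  refine le_trans (Finset.card_le_card hsub) ?_
  refine le_trans Finset.card_biUnion_le ?_
  refine Finset.sum_le_sum (fun k _ => ?_)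
  refine le_trans Finset.card_biUnion_le ?_
  refine Finset.sum_le_sum (fun l _ => ?_)
  unfold hh
  split_ifs
  · exact le_rfl
  · simp

/-- bound of `Pset` for the rows of a sample -/
theorem pset_card_le (S : α → Finset β) {q : ℕ} (s : Fin q → α) (u : α) :
    (Pset S (univ.image s) u).card ≤ ∑ k, hh S (s k) u := by
  have hsub : Pset S (univ.image s) u ⊆ (univ : Finset (Fin q)).biUnion
      (fun k => if s k < u then hit (S (s k)) (S u) else ∅) := by
    intro z hz
    rw [mem_Pset] at hz
    obtain ⟨a, ha, hau, hz⟩ := hz
    rw [mem_image] at ha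
    obtain ⟨k, _, rfl⟩ := ha
    rw [mem_biUnion]
    refine ⟨k, mem_univ k, ?_⟩
    rw [if_pos hau]
    exact hz
  refine le_trans (Finset.card_le_card hsub) ?_
  refine le_trans Finset.card_biUnion_le ?_
  refine Finset.sum_le_sum (fun k _ => ?_)
  unfold hh
  split_ifs
  · exact le_rfl
  · simp

theorem image_card_le {q : ℕ} (s : Fin q → α) : (univ.image s).card ≤ q := by
  have h := Finset.card_image_le (s := (univ : Finset (Fin q))) (f := s)
  rw [Finset.card_univ, Fintype.card_fin] at h
  exact h

/-- the sum of all hitting-set sizes is controlled by the number of copies -/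
theorem hh_sum_sq (S : α → Finset β) :
    (∑ a, ∑ b, hh S a b) ^ 2 ≤ Fintype.card α ^ 2 * (4 * NE S) := by
  have e1 : ∑ a, ∑ b, hh S a b = ∑ p : α × α, hh S p.1 p.2 := by
    rw [← Finset.univ_product_univ, Finset.sum_product]
  have e2 : NE S = ∑ p : α × α, (if p.1 < p.2 then (vio (S p.1) (S p.2)).card else 0) := by
    unfold NE
    rw [← Finset.univ_product_univ, Finset.sum_product]
  rw [e1, e2]
  calc (∑ p : α × α, hh S p.1 p.2) ^ 2
      ≤ (univ : Finset (α × α)).card * ∑ p : α × α, hh S p.1 p.2 ^ 2 :=
        sq_sum_le_card_mul_sum_sq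
    _ = Fintype.card α ^ 2 * ∑ p : α × α, hh S p.1 p.2 ^ 2 := by
        rw [Finset.card_univ, Fintype.card_prod, sq]
    _ ≤ Fintype.card α ^ 2 *
          ∑ p : α × α, 4 * (if p.1 < p.2 then (vio (S p.1) (S p.2)).card else 0) := by
        refine Nat.mul_le_mul_left _ (Finset.sum_le_sum (fun p _ => ?_))
        unfold hh
        split_ifs
        · exact hit_card _ _
        · simp
    _ = Fintype.card α ^ 2 *
          (4 * ∑ p : α × α, (if p.1 < p.2 then (vio (S p.1) (S p.2)).card else 0)) := by
        rw [← Finset.mul_sum]

end Vale.Agent.Lib.P037.EPat
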