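import Vale.Agent.Lib.P037.EPat.Hit

namespace Vale.Agent.Lib.P037.EPat

open Finset

set_option linter.unusedSectionVars false

variable {α β : Type} [Fintype α] [Fintype β] [LinearOrder α] [LinearOrder β]

/-- the rows indexed by `F` have no violation among themselves -/
def Exact (T : α → Finset β) (F : Finset α) : Prop :=
  ∀ a ∈ F, ∀ b ∈ F, a < b → ∀ c d, c < d → c ∈ T a → d ∈ T a → c ∈ T b → d ∈ T b

/-- `c < d` lie together in some row indexed by `F` -/
def Step (T : α → Finset β) (F : Finset α) (c d : β) : Prop :=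
  c < d ∧ ∃ ρ ∈ F, c ∈ T ρ ∧ d ∈ T ρ

/-- reachability along steps -/
def Reach (T : α → Finset β) (F : Finset α) : β → β → Prop := Relation.TransGen (Step T F)

variable {T : α → Finset β} {F F' : Finset α}

theorem Exact.mono (h : Exact T F') (hs : F ⊆ F') : Exact T F :=
  fun a ha b hb => h a (hs ha) b (hs hb)

theorem Step.mono (hs : F ⊆ F') {c d : β} (h : Step T F c d) : Step T F' c d := by
  obtain ⟨h1, ρ, hρ, h2⟩ := h
  exact ⟨h1, ρ, hs hρ, h2⟩

theorem Reach.mono (hs : F ⊆ F') {c d : β} (h : Reach T F c d) : Reach T F' c d := by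
  induction h with
  | single h => exact Relation.TransGen.single (Step.mono hs h)
  | tail _ h ih => exact Relation.TransGen.tail ih (Step.mono hs h)

theorem Reach.lt {c d : β} (h : Reach T F c d) : c < d := by
  induction h with
  | single h => exact h.1
  | tail _ h ih => exact lt_trans ih h.1

theorem reach_first {c d : β} (h : Reach T F c d) : ∃ f, Step T F c f ∧ f ≤ d := by
  induction h using Relation.TransGen.head_induction_on with
  | single h => exact ⟨d, h, le_rfl⟩
  | head h' h _ => exact ⟨_, h', (Reach.lt h).le⟩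

theorem step_lin (hE : Exact T F) {a b b' : β} (h1 : Step T F a b) (h2 : Step T F a b')
    (hbb : b < b') : Step T F b b' := by
  obtain ⟨hab, ρ, hρ, haρ, hbρ⟩ := h1
  obtain ⟨hab', ρ', hρ', haρ', hbρ'⟩ := h2
  refine ⟨hbb, ?_⟩
  rcases lt_trichotomy ρ ρ' with h | h | h
  · exact ⟨ρ', hρ', hE ρ hρ ρ' hρ' h a b hab haρ hbρ haρ', hbρ'⟩
  · subst h
    exact ⟨ρ, hρ, hbρ, hbρ'⟩
  · exact ⟨ρ, hρ, hbρ, hE ρ' hρ' ρ hρ h a b' hab' haρ' hbρ' haρ⟩

theorem reach_of_step (hE : Exact T F) {x d : β} (hxd : Reach T F x d) :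
    ∀ z, Step T F x z → z < d → Reach T F z d := by
  induction hxd using Relation.TransGen.head_induction_on with
  | single h =>
    intro z hz hzd
    exact Relation.TransGen.single (step_lin hE hz h hzd)
  | @head x w h' h ih =>
    intro z hz hzd
    rcases lt_trichotomy z w with hzw | hzw | hzw
    · exact Relation.TransGen.head (step_lin hE hz h' hzw) h
    · subst hzw
      exact h
    · exact ih z (step_lin hE h' hz hzw) hzd

theorem reach_lin (hE : Exact T F) {x c : β} (hxc : Reach T F x c) :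
    ∀ d, Reach T F x d → c < d → Reach T F c d := by
  induction hxc using Relation.TransGen.head_induction_on with
  | single h =>
    intro d hd hcd
    exact reach_of_step hE hd _ h hcd
  | @head x z h' h ih =>
    intro d hd hcd
    have hzc : z < c := Reach.lt h
    exact ih d (reach_of_step hE hd _ h' (lt_trans hzc hcd)) hcd

open Classical in
/-- the root path starting at `x`: `x` together with everything reachable from it -/
noncomputable def rootPath (T : α → Finset β) (F : Finset α) (x : β) : Finset β :=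
  insert x (univ.filter (fun d => Reach T F x d))

theorem mem_rootPath {x d : β} : d ∈ rootPath T F x ↔ d = x ∨ Reach T F x d := by
  classical
  unfold rootPath
  rw [mem_insert, mem_filter]
  simp

theorem rootPath_reach {x c d : β} (hc : c ∈ rootPath T F x) (h : Reach T F c d) :
    d ∈ rootPath T F x := by
  rw [mem_rootPath] at hc ⊢
  right
  rcases hc with rfl | hc
  · exact h
  · exact Relation.TransGen.trans hc h

theorem rootPath_conn (hE : Exact T F) {x c d : β} (hc : c ∈ rootPath T F x)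
    (hd : d ∈ rootPath T F x) (hcd : c < d) : Reach T F c d := by
  rw [mem_rootPath] at hc hd
  rcases hc with rfl | hc
  · rcases hd with rfl | hd
    · exact absurd hcd (lt_irrefl _)
    · exact hd
  · rcases hd with rfl | hd
    · exact absurd (lt_trans (Reach.lt hc) hcd) (lt_irrefl _)
    · exact reach_lin hE hc d hd hcd

/-- a family whose rows are empty or root paths of a growing exact system is free -/
theorem efree_of_rootPaths (T : α → Finset β) (G : α → Finset α)
    (hG : ∀ u v, u ≤ v → G u ⊆ G v) (hE : ∀ u, Exact T (G u)) (B : α → Finset β)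
    (hB : ∀ u, B u = ∅ ∨ ∃ x, B u = rootPath T (G u) x) : EFree B := by
  intro u v huv c d hcd hcu hdu hcv
  rcases hB u with h | ⟨x, hx⟩
  · rw [h] at hcu
    exact absurd hcu (Finset.notMem_empty _)
  rcases hB v with h | ⟨y, hy⟩
  · rw [h] at hcv
    exact absurd hcv (Finset.notMem_empty _)
  rw [hx] at hcu hdu
  rw [hy] at hcv ⊢
  have h1 : Reach T (G u) c d := rootPath_conn (hE u) hcu hdu hcd
  have h2 : Reach T (G v) c d := Reach.mono (hG u v huv.le) h1
  exact rootPath_reach hcv h2

/-- entry nodes: `z` follows `v` in the last row `ρ` containing `v`, and `z` occurs in a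
later row -/
def Entry (T : α → Finset β) (F : Finset α) (z : β) : Prop :=
  ∃ v ρ ρ', ρ ∈ F ∧ ρ' ∈ F ∧ ρ < ρ' ∧ v ∈ T ρ ∧ z ∈ T ρ ∧ v < z ∧
    (∀ e ∈ T ρ, v < e → z ≤ e) ∧ (∀ σ ∈ F, v ∈ T σ → σ ≤ ρ) ∧ z ∈ T ρ'

theorem entry_card (hE : Exact T F) (Z : Finset β) (hZ : ∀ z ∈ Z, Entry T F z) :
    Z.card ≤ F.card := by
  classical
  refine Finset.card_le_card_of_forall_subsingleton
    (fun z ρ => ∃ v ρ', ρ' ∈ F ∧ ρ < ρ' ∧ v ∈ T ρ ∧ z ∈ T ρ ∧ v < z ∧
      (∀ e ∈ T ρ, v < e → z ≤ e) ∧ (∀ σ ∈ F, v ∈ T σ → σ ≤ ρ) ∧ z ∈ T ρ') ?_ ?_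
  · intro z hz
    obtain ⟨v, ρ, ρ', h1, h2, rest⟩ := hZ z hz
    exact ⟨ρ, h1, v, ρ', h2, rest⟩
  · intro ρ hρ z hz z' hz'
    obtain ⟨_, v, ρ1, hρ1, hlt1, hv, hzρ, hvz, hnext, hlast, hz1⟩ := hz
    obtain ⟨_, v', ρ2, hρ2, hlt2, hv', hzρ', hvz', hnext', hlast', hz2⟩ := hz'
    -- the two witnesses coincide
    have key : ∀ (v v' z z' : β) (ρ1 : α), ρ1 ∈ F → ρ < ρ1 → v ∈ T ρ → z ∈ T ρ → v < z →
        (∀ e ∈ T ρ, v < e → z ≤ e) → z ∈ T ρ1 → v' ∈ T ρ →
        (∀ σ ∈ F, v' ∈ T σ → σ ≤ ρ) → v < v' → False := by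
      intro v v' z z' ρ1 hρ1 hlt1 hv hzρ hvz hnext hz1 hv' hlast' hvv'
      have hzv' : z ≤ v' := hnext v' hv' hvv'
      have hv'1 : v' ∈ T ρ1 := by
        rcases eq_or_lt_of_le hzv' with h | h
        · rw [← h]
          exact hz1
        · exact hE ρ hρ ρ1 hρ1 hlt1 z v' h hzρ hv' hz1
      exact absurd (hlast' ρ1 hρ1 hv'1) (not_le.2 hlt1)
    have hvv : v = v' := by
      rcases lt_trichotomy v v' with h | h | h
      · exact (key v v' z z' ρ1 hρ1 hlt1 hv hzρ hvz hnext hz1 hv' hlast' h).elim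
      · exact h
      · exact (key v' v z' z ρ2 hρ2 hlt2 hv' hzρ' hvz' hnext' hz2 hv hlast h).elim
    subst hvv
    exact le_antisymm (hnext z' hzρ' hvz') (hnext' z hzρ hvz)

/-- if no entry node lies in `P`, a set `Z` that is closed under the rows up to `P` contains
everything reachable from its elements outside `P` -/
theorem closed_of_no_entry (hE : Exact T F) (Z P : Finset β)
    (hcov : ∀ ρ ∈ F, ∀ c ∈ Z, c ∈ T ρ → ∀ d ∈ T ρ, c < d → d ∈ Z ∨ d ∈ P)
    (hent : ∀ z, Entry T F z → z ∉ P) :
    ∀ x, x ∈ Z → ∀ d, Reach T F x d → d ∉ P → d ∈ Z := by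
  intro x
  induction x using WellFoundedGT.induction with
  | ind x ih =>
    intro hxZ d hxd hdP
    by_cases hA : ∃ e, Step T F x e ∧ e ∉ P ∧ e ≤ d
    · obtain ⟨e, hxe, heP, hed⟩ := hA
      obtain ⟨hlt, ρ, hρ, hxρ, heρ⟩ := hxe
      have heZ : e ∈ Z := (hcov ρ hρ x hxZ hxρ e heρ hlt).resolve_right heP
      rcases eq_or_lt_of_le hed with h | h
      · rw [← h]
        exact heZ
      · exact ih e hlt heZ d (reach_of_step hE hxd e ⟨hlt, ρ, hρ, hxρ, heρ⟩ h) hdP
    · exfalso
      have hA' : ∀ e, Step T F x e → e ∉ P → d < e := by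
        intro e h1 h2
        by_contra h3
        exact hA ⟨e, h1, h2, not_lt.1 h3⟩
      have hocc : (F.filter (fun ρ => x ∈ T ρ)).Nonempty := by
        obtain ⟨f, ⟨_, ρ, hρ, hxρ, _⟩, _⟩ := reach_first hxd
        exact ⟨ρ, mem_filter.2 ⟨hρ, hxρ⟩⟩
      have hlamF := Finset.max'_mem _ hocc
      rw [mem_filter] at hlamF
      have hlast : ∀ σ ∈ F, x ∈ T σ → σ ≤ (F.filter (fun ρ => x ∈ T ρ)).max' hocc :=
        fun σ hσ hxσ => Finset.le_max' _ σ (mem_filter.2 ⟨hσ, hxσ⟩)
      generalize (F.filter (fun ρ => x ∈ T ρ)).max' hocc = lam at hlamF hlast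
      have walk : ∀ e, e ∈ T lam → x ≤ e → e < d → Reach T F e d →
          (∀ σ ∈ F, e ∈ T σ → σ ≤ lam) → False := by
        intro e
        induction e using WellFoundedGT.induction with
        | ind e ihe =>
          intro hel hxe hed hreach hlaste
          obtain ⟨f, hef, hfd⟩ := reach_first hreach
          obtain ⟨hltf, σ, hσ, heσ, hfσ⟩ := hef
          have hsl := hlaste σ hσ heσ
          have hfl : f ∈ T lam := by
            rcases eq_or_lt_of_le hsl with h | h
            · rw [← h]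
              exact hfσ
            · exact hE σ hσ lam hlamF.1 h e f hltf heσ hfσ hel
          have hne : ((T lam).filter (fun y => e < y)).Nonempty :=
            ⟨f, mem_filter.2 ⟨hfl, hltf⟩⟩
          have he' := Finset.min'_mem _ hne
          rw [mem_filter] at he'
          have he'f : ((T lam).filter (fun y => e < y)).min' hne ≤ f :=
            Finset.min'_le _ f (mem_filter.2 ⟨hfl, hltf⟩)
          have hnext : ∀ w, w ∈ T lam → e < w →
              ((T lam).filter (fun y => e < y)).min' hne ≤ w := by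
            intro w hw hew
            exact Finset.min'_le _ w (mem_filter.2 ⟨hw, hew⟩)
          generalize ((T lam).filter (fun y => e < y)).min' hne = e' at he' he'f hnext
          have hxe' : x < e' := lt_of_le_of_lt hxe he'.2
          have hstepx : Step T F x e' := ⟨hxe', lam, hlamF.1, hlamF.2, he'.1⟩
          have he'd : e' ≤ d := le_trans he'f hfd
          have he'P : e' ∈ P := by
            by_contra hnot
            exact absurd he'd (not_le.2 (hA' e' hstepx hnot))
          have he'd' : e' < d := by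
            refine lt_of_le_of_ne he'd (fun h => hdP ?_)
            rw [← h]
            exact he'P
          have hreach' : Reach T F e' d :=
            reach_of_step hE hreach e' ⟨he'.2, lam, hlamF.1, hel, he'.1⟩ he'd'
          by_cases hl : ∀ σ ∈ F, e' ∈ T σ → σ ≤ lam
          · exact ihe e' he'.2 he'.1 hxe'.le he'd' hreach' hl
          · have hl' : ∃ σ', σ' ∈ F ∧ e' ∈ T σ' ∧ lam < σ' := by
              by_contra hcon
              apply hl
              intro σ' h1 h2
              by_contra h3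
              exact hcon ⟨σ', h1, h2, not_le.1 h3⟩
            obtain ⟨σ', hσ', he'σ', hlt'⟩ := hl'
            exact hent e' ⟨e, lam, σ', hlamF.1, hσ', hlt', hel, he'.1, he'.2, hnext, hlaste,
              he'σ'⟩ he'P
      exact walk x hlamF.2 le_rfl (Reach.lt hxd) hxd hlast

end Vale.Agent.Lib.P037.EPat
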