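import Mathlib

namespace Vale.Agent.Lib.P037.EPat

open Finset

set_option linter.unusedSectionVars false

variable {β : Type} [Fintype β] [LinearOrder β]

/-- violations of the ordered pair of column sets `X` (upper row) and `Y` (lower row):
pairs `c < d` with `c` in both and `d` only in `X` -/
def vio (X Y : Finset β) : Finset (β × β) :=
  ((X ∩ Y) ×ˢ (X \ Y)).filter (fun p => p.1 < p.2)

theorem mem_vio (X Y : Finset β) (c d : β) :
    (c, d) ∈ vio X Y ↔ c < d ∧ c ∈ X ∧ c ∈ Y ∧ d ∈ X ∧ d ∉ Y := by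
  simp only [vio, mem_filter, mem_product, mem_inter, mem_sdiff]
  tauto

/-- number of elements of `X \ Y` above `x` -/
def dg (X Y : Finset β) (x : β) : ℕ := ((X \ Y).filter (fun y => x < y)).card

theorem vio_card (X Y : Finset β) : (vio X Y).card = ∑ x ∈ X ∩ Y, dg X Y x := by
  unfold vio dg
  rw [Finset.card_filter, Finset.sum_product]
  refine Finset.sum_congr rfl (fun x _ => ?_)
  rw [Finset.card_filter]

theorem exists_hit (X Y : Finset β) :
    ∃ H : Finset β, (∀ c d, c < d → c ∈ X → c ∈ Y → d ∈ X → d ∉ Y → c ∈ H ∨ d ∈ H) ∧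
      H.card ^ 2 ≤ 4 * (vio X Y).card := by
  classical
  set κ := (vio X Y).card with hκ
  set m := Nat.sqrt κ with hm
  set H1 := (X ∩ Y).filter (fun x => m < dg X Y x) with hH1
  set H2 := (X \ Y).filter (fun y => ∃ x ∈ X ∩ Y, x < y ∧ dg X Y x ≤ m) with hH2
  refine ⟨H1 ∪ H2, ?_, ?_⟩
  · intro c d hcd hcX hcY hdX hdY
    by_cases h : m < dg X Y c
    · left
      rw [mem_union]
      left
      rw [hH1, mem_filter, mem_inter]
      exact ⟨⟨hcX, hcY⟩, h⟩
    · right
      rw [mem_union]
      right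
      rw [hH2, mem_filter, mem_sdiff]
      exact ⟨⟨hdX, hdY⟩, c, mem_inter.2 ⟨hcX, hcY⟩, hcd, not_lt.1 h⟩
  · have h1 : H1.card ≤ m := by
      by_contra hcon
      rw [not_le] at hcon
      have hs : H1.card * (m + 1) ≤ κ := by
        calc H1.card * (m + 1) = ∑ _x ∈ H1, (m + 1) := by rw [Finset.sum_const, smul_eq_mul]
          _ ≤ ∑ x ∈ H1, dg X Y x := by
              refine Finset.sum_le_sum (fun x hx => ?_)
              rw [hH1, mem_filter] at hx
              exact hx.2
          _ ≤ ∑ x ∈ X ∩ Y, dg X Y x :=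
              Finset.sum_le_sum_of_subset (Finset.filter_subset _ _)
          _ = κ := (vio_card X Y).symm
      have h2 : κ < (m + 1) * (m + 1) := Nat.lt_succ_sqrt κ
      have h3 : (m + 1) * (m + 1) ≤ H1.card * (m + 1) :=
        Nat.mul_le_mul_right _ hcon
      omega
    have h2 : H2.card ≤ m := by
      by_cases hne : ((X ∩ Y).filter (fun x => dg X Y x ≤ m)).Nonempty
      · set x0 := ((X ∩ Y).filter (fun x => dg X Y x ≤ m)).min' hne with hx0
        have hx0mem := Finset.min'_mem _ hne
        rw [← hx0, mem_filter] at hx0mem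
        have hsub : H2 ⊆ (X \ Y).filter (fun y => x0 < y) := by
          intro y hy
          rw [hH2, mem_filter] at hy
          obtain ⟨hy1, x, hx, hxy, hxm⟩ := hy
          rw [mem_filter]
          refine ⟨hy1, lt_of_le_of_lt ?_ hxy⟩
          exact Finset.min'_le _ x (mem_filter.2 ⟨hx, hxm⟩)
        exact le_trans (Finset.card_le_card hsub) hx0mem.2
      · have hemp : H2 = ∅ := by
          rw [Finset.eq_empty_iff_forall_notMem]
          intro y hy
          rw [hH2, mem_filter] at hy
          obtain ⟨_, x, hx, _, hxm⟩ := hy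
          exact hne ⟨x, mem_filter.2 ⟨hx, hxm⟩⟩
        rw [hemp]
        simp
    have h3 : (H1 ∪ H2).card ≤ 2 * m := by
      have := Finset.card_union_le H1 H2
      omega
    have h4 : m * m ≤ κ := Nat.sqrt_le κ
    calc (H1 ∪ H2).card ^ 2 ≤ (2 * m) ^ 2 := Nat.pow_le_pow_left h3 2
      _ = 4 * (m * m) := by ring
      _ ≤ 4 * κ := Nat.mul_le_mul_left 4 h4

/-- a small set of columns meeting every violation of the ordered pair `(X, Y)` -/
noncomputable def hit (X Y : Finset β) : Finset β := Classical.choose (exists_hit X Y)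

theorem hit_cover (X Y : Finset β) (c d : β) (hcd : c < d) (hcX : c ∈ X) (hcY : c ∈ Y)
    (hdX : d ∈ X) (hdY : d ∉ Y) : c ∈ hit X Y ∨ d ∈ hit X Y :=
  (Classical.choose_spec (exists_hit X Y)).1 c d hcd hcX hcY hdX hdY

theorem hit_card (X Y : Finset β) : (hit X Y).card ^ 2 ≤ 4 * (vio X Y).card :=
  (Classical.choose_spec (exists_hit X Y)).2

variable {α : Type} [Fintype α] [LinearOrder α]

/-- a family of rows is free of the pattern if no ordered pair of rows has a violation -/
def EFree (S : α → Finset β) : Prop :=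
  ∀ u v, u < v → ∀ c d, c < d → c ∈ S u → d ∈ S u → c ∈ S v → d ∈ S v

/-- number of copies of the pattern in a family of rows -/
def NE (S : α → Finset β) : ℕ := ∑ u, ∑ v, if u < v then (vio (S u) (S v)).card else 0

theorem EFree_of_NE (S : α → Finset β) (h : NE S = 0) : EFree S := by
  intro u v huv c d hcd hcu hdu hcv
  by_contra hdv
  have h1 : (c, d) ∈ vio (S u) (S v) := (mem_vio _ _ c d).2 ⟨hcd, hcu, hcv, hdu, hdv⟩
  unfold NE at h
  have h2 := (Finset.sum_eq_zero_iff.1 h) u (mem_univ u)
  have h3 := (Finset.sum_eq_zero_iff.1 h2) v (mem_univ v)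
  rw [if_pos huv, Finset.card_eq_zero] at h3
  rw [h3] at h1
  exact absurd h1 (Finset.notMem_empty _)

end Vale.Agent.Lib.P037.EPat
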