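import Vale.Agent.Lib.P037.EPat.Cost

namespace Vale.Agent.Lib.P037.EPat

open Finset

set_option linter.unusedSectionVars false

variable {α β : Type} [Fintype α] [Fintype β] [LinearOrder α] [LinearOrder β]

/-- total hitting size among the sample rows -/
noncomputable def dS (S : α → Finset β) {q : ℕ} (s : Fin q → α) : ℕ :=
  ∑ k, ∑ l, hh S (s k) (s l)

/-- total hitting size of the sample rows against all rows -/
noncomputable def pS (S : α → Finset β) {q : ℕ} (s : Fin q → α) : ℕ :=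
  ∑ u, ∑ k, hh S (s k) u

/-- total number of unseen pairs -/
def uS (S : α → Finset β) {q : ℕ} (s : Fin q → α) : ℕ :=
  ∑ u, UN S (univ.image s) u

theorem hh_self (S : α → Finset β) (a : α) : hh S a a = 0 := by
  unfold hh
  rw [if_neg (lt_irrefl a)]

theorem sum_dS (S : α → Finset β) (q : ℕ) :
    Fintype.card α ^ 2 * ∑ s : Fin q → α, dS S s
      ≤ q ^ 2 * (Fintype.card α ^ q * ∑ a, ∑ b, hh S a b) := by
  unfold dS
  rw [Finset.sum_comm, Finset.mul_sum]
  have key : ∀ k : Fin q, Fintype.card α ^ 2 * ∑ s : Fin q → α, ∑ l, hh S (s k) (s l)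
      ≤ q * (Fintype.card α ^ q * ∑ a, ∑ b, hh S a b) := by
    intro k
    rw [Finset.sum_comm, Finset.mul_sum]
    calc ∑ l, Fintype.card α ^ 2 * ∑ s : Fin q → α, hh S (s k) (s l)
        ≤ ∑ _l : Fin q, (Fintype.card α ^ q * ∑ a, ∑ b, hh S a b) := by
          refine Finset.sum_le_sum (fun l _ => ?_)
          by_cases hkl : k = l
          · subst hkl
            have h0 : ∑ s : Fin q → α, hh S (s k) (s k) = 0 :=
              Finset.sum_eq_zero (fun s _ => hh_self S (s k))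
            rw [h0, mul_zero]
            exact Nat.zero_le _
          · exact le_of_eq (sum_coord2 q k l hkl (hh S))
      _ = q * (Fintype.card α ^ q * ∑ a, ∑ b, hh S a b) := by
          rw [Finset.sum_const, smul_eq_mul, Finset.card_univ, Fintype.card_fin]
  calc ∑ k, Fintype.card α ^ 2 * ∑ s : Fin q → α, ∑ l, hh S (s k) (s l)
      ≤ ∑ _k : Fin q, q * (Fintype.card α ^ q * ∑ a, ∑ b, hh S a b) :=
        Finset.sum_le_sum (fun k _ => key k)
    _ = q ^ 2 * (Fintype.card α ^ q * ∑ a, ∑ b, hh S a b) := by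
        rw [Finset.sum_const, smul_eq_mul, Finset.card_univ, Fintype.card_fin]
        ring

theorem sum_pS (S : α → Finset β) (q : ℕ) :
    Fintype.card α * ∑ s : Fin q → α, pS S s
      = q * (Fintype.card α ^ q * ∑ a, ∑ b, hh S a b) := by
  unfold pS
  rw [Finset.sum_comm, Finset.mul_sum]
  have key : ∀ u : α, Fintype.card α * ∑ s : Fin q → α, ∑ k, hh S (s k) u
      = q * (Fintype.card α ^ q * ∑ a, hh S a u) := by
    intro u
    rw [Finset.sum_comm, Finset.mul_sum]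
    rw [Finset.sum_congr rfl (fun k _ => sum_coord q k (fun a => hh S a u))]
    rw [Finset.sum_const, smul_eq_mul, Finset.card_univ, Fintype.card_fin]
  rw [Finset.sum_congr rfl (fun u _ => key u)]
  rw [← Finset.mul_sum, ← Finset.mul_sum, Finset.sum_comm]

theorem sum_uS (S : α → Finset β) (q : ℕ) :
    (q + 1) * ∑ s : Fin q → α, uS S s
      ≤ Fintype.card β ^ 2 * (Fintype.card α ^ q * (Fintype.card α + q + 1)) := by
  unfold uS
  calc (q + 1) * ∑ s : Fin q → α, ∑ u, UN S (univ.image s) u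
      ≤ (q + 1) * (Fintype.card β ^ 2 *
          ∑ j ∈ range (Fintype.card α), (Fintype.card α - j) ^ q) :=
        Nat.mul_le_mul_left _ (sum_unseen S q)
    _ = Fintype.card β ^ 2 *
          ((q + 1) * ∑ j ∈ range (Fintype.card α), (Fintype.card α - j) ^ q) := by ring
    _ ≤ Fintype.card β ^ 2 * (Fintype.card α ^ q * (Fintype.card α + q + 1)) :=
        Nat.mul_le_mul_left _ (pow_sum_bound q _)

theorem arith_K (c Hs n NEs M : ℕ) (hH : Hs ^ 2 ≤ n ^ 2 * (4 * NEs))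
    (hNE : NEs * M ^ 4 ≤ n ^ 4) (hc : 4 * c ^ 2 ≤ M ^ 4) : c * Hs ≤ n ^ 3 := by
  have h1 : (c * Hs) ^ 2 ≤ (n ^ 3) ^ 2 := by
    calc (c * Hs) ^ 2 = c ^ 2 * Hs ^ 2 := by ring
      _ ≤ c ^ 2 * (n ^ 2 * (4 * NEs)) := Nat.mul_le_mul_left _ hH
      _ = (4 * c ^ 2) * (NEs * n ^ 2) := by ring
      _ ≤ M ^ 4 * (NEs * n ^ 2) := Nat.mul_le_mul_right _ hc
      _ = (NEs * M ^ 4) * n ^ 2 := by ring
      _ ≤ n ^ 4 * n ^ 2 := Nat.mul_le_mul_right _ hNE
      _ = (n ^ 3) ^ 2 := by ring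
  exact (Nat.pow_le_pow_iff_left (by norm_num)).1 h1

theorem cost_arith (n k q M L D Bd PS MS r dv pv uv cost : ℕ)
    (hM : M = 5 * k * q * (q + 1)) (hM1 : 1 ≤ M)
    (hLM : L * M ≤ n) (hn2 : n ≤ 2 * (L * M))
    (hD : D ≤ dv) (hPS : PS ≤ pv) (hr : r ≤ q) (hBad : L * Bd ≤ PS)
    (hMS : MS ^ 2 ≤ n * (2 * uv))
    (h1 : 5 * k * dv ≤ n) (h2 : 10 * k * M * pv ≤ n ^ 2) (h3 : 50 * k ^ 2 * uv ≤ n ^ 3)
    (hcost : cost ≤ n * (D + Bd) + 2 * PS + MS + n * ((r + 1) * (r * L))) :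
    k * cost ≤ n ^ 2 := by
  have ha : 5 * k * (n * D) ≤ n ^ 2 := by
    calc 5 * k * (n * D) = n * (5 * k * D) := by ring
      _ ≤ n * (5 * k * dv) := Nat.mul_le_mul_left _ (Nat.mul_le_mul_left _ hD)
      _ ≤ n * n := Nat.mul_le_mul_left _ h1
      _ = n ^ 2 := by ring
  have hb : 5 * k * (n * Bd) ≤ n ^ 2 := by
    calc 5 * k * (n * Bd) ≤ 5 * k * (2 * (L * M) * Bd) :=
          Nat.mul_le_mul_left _ (Nat.mul_le_mul_right _ hn2)
      _ = 10 * k * M * (L * Bd) := by ring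
      _ ≤ 10 * k * M * PS := Nat.mul_le_mul_left _ hBad
      _ ≤ 10 * k * M * pv := Nat.mul_le_mul_left _ hPS
      _ ≤ n ^ 2 := h2
  have hc : 5 * k * (2 * PS) ≤ n ^ 2 := by
    calc 5 * k * (2 * PS) = 10 * k * 1 * PS := by ring
      _ ≤ 10 * k * M * PS := Nat.mul_le_mul_right _ (Nat.mul_le_mul_left _ hM1)
      _ ≤ 10 * k * M * pv := Nat.mul_le_mul_left _ hPS
      _ ≤ n ^ 2 := h2
  have hd : 5 * k * MS ≤ n ^ 2 := by
    have hsq : (5 * k * MS) ^ 2 ≤ (n ^ 2) ^ 2 := by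
      calc (5 * k * MS) ^ 2 = 25 * k ^ 2 * MS ^ 2 := by ring
        _ ≤ 25 * k ^ 2 * (n * (2 * uv)) := Nat.mul_le_mul_left _ hMS
        _ = n * (50 * k ^ 2 * uv) := by ring
        _ ≤ n * n ^ 3 := Nat.mul_le_mul_left _ h3
        _ = (n ^ 2) ^ 2 := by ring
    exact (Nat.pow_le_pow_iff_left (by norm_num)).1 hsq
  have he : 5 * k * (n * ((r + 1) * (r * L))) ≤ n ^ 2 := by
    have h' : (r + 1) * (r * L) ≤ (q + 1) * (q * L) :=
      Nat.mul_le_mul (Nat.succ_le_succ hr) (Nat.mul_le_mul_right _ hr)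
    calc 5 * k * (n * ((r + 1) * (r * L))) ≤ 5 * k * (n * ((q + 1) * (q * L))) :=
          Nat.mul_le_mul_left _ (Nat.mul_le_mul_left _ h')
      _ = n * (L * (5 * k * q * (q + 1))) := by ring
      _ = n * (L * M) := by rw [hM]
      _ ≤ n * n := Nat.mul_le_mul_left _ hLM
      _ = n ^ 2 := by ring
  have hfin : 5 * (k * cost) ≤ 5 * n ^ 2 := by
    calc 5 * (k * cost) = 5 * k * cost := by ring
      _ ≤ 5 * k * (n * (D + Bd) + 2 * PS + MS + n * ((r + 1) * (r * L))) :=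
          Nat.mul_le_mul_left _ hcost
      _ = 5 * k * (n * D) + 5 * k * (n * Bd) + 5 * k * (2 * PS) + 5 * k * MS
            + 5 * k * (n * ((r + 1) * (r * L))) := by ring
      _ ≤ n ^ 2 + n ^ 2 + n ^ 2 + n ^ 2 + n ^ 2 :=
          Nat.add_le_add (Nat.add_le_add (Nat.add_le_add (Nat.add_le_add ha hb) hc) hd) he
      _ = 5 * n ^ 2 := by ring
  exact Nat.le_of_mul_le_mul_left hfin (by norm_num)

theorem param_arith (k q M : ℕ) (hk : 1 ≤ k) (hq : q = 400 * k ^ 2)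
    (hM : M = 5 * k * q * (q + 1)) :
    1 ≤ M ∧ q + 1 ≤ M ∧ 4 * (15 * k * q ^ 2) ^ 2 ≤ M ^ 4 ∧ 4 * (30 * k * M * q) ^ 2 ≤ M ^ 4 := by
  have hk2 : 1 ≤ k ^ 2 := Nat.one_le_pow _ _ hk
  have hq400 : 400 ≤ q := by
    rw [hq]
    omega
  have hkq : 1 ≤ k * q := Nat.mul_pos hk (by omega)
  have hM2 : q + 1 ≤ M := by
    rw [hM]
    calc q + 1 = 1 * (q + 1) := by ring
      _ ≤ (5 * k * q) * (q + 1) := Nat.mul_le_mul_right _ (by nlinarith)
  have hM3 : 60 * k * q ≤ M := by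
    rw [hM]
    calc 60 * k * q = 5 * k * q * 12 := by ring
      _ ≤ 5 * k * q * (q + 1) := Nat.mul_le_mul_left _ (by omega)
  have hM4 : 5 * k * q ^ 2 ≤ M := by
    rw [hM]
    calc 5 * k * q ^ 2 = 5 * k * q * q := by ring
      _ ≤ 5 * k * q * (q + 1) := Nat.mul_le_mul_left _ (by omega)
  refine ⟨by omega, hM2, ?_, ?_⟩
  · have hw : 2 ≤ k * q ^ 2 := by
      have : 1 * 2 ≤ k * q ^ 2 := Nat.mul_le_mul hk (by nlinarith)
      omega
    have hw2 : 2 ≤ (k * q ^ 2) ^ 2 := by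
      calc 2 ≤ k * q ^ 2 := hw
        _ = (k * q ^ 2) ^ 1 := (pow_one _).symm
        _ ≤ (k * q ^ 2) ^ 2 := Nat.pow_le_pow_right (by omega) (by norm_num)
    calc 4 * (15 * k * q ^ 2) ^ 2 = 900 * (k * q ^ 2) ^ 2 := by ring
      _ ≤ 625 * (k * q ^ 2) ^ 2 * (k * q ^ 2) ^ 2 := Nat.mul_le_mul_right _ (by omega)
      _ = (5 * k * q ^ 2) ^ 4 := by ring
      _ ≤ M ^ 4 := Nat.pow_le_pow_left hM4 4
  · calc 4 * (30 * k * M * q) ^ 2 = (60 * k * q) ^ 2 * M ^ 2 := by ring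
      _ ≤ M ^ 2 * M ^ 2 := Nat.mul_le_mul_right _ (Nat.pow_le_pow_left hM3 2)
      _ = M ^ 4 := by ring

theorem param_arith3 (k q M n : ℕ) (hq : q = 400 * k ^ 2) (hM2 : q + 1 ≤ M) (hn : M ≤ n) :
    150 * k ^ 2 * (n + q + 1) ≤ (q + 1) * n := by
  have h1 : q + 1 ≤ n := le_trans hM2 hn
  have h2 : 150 * k ^ 2 * (q + 1) ≤ 250 * k ^ 2 * n := by
    calc 150 * k ^ 2 * (q + 1) ≤ 250 * k ^ 2 * (q + 1) :=
          Nat.mul_le_mul_right _ (by omega)
      _ ≤ 250 * k ^ 2 * n := Nat.mul_le_mul_left _ h1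
  calc 150 * k ^ 2 * (n + q + 1) = 150 * k ^ 2 * n + 150 * k ^ 2 * (q + 1) := by ring
    _ ≤ 150 * k ^ 2 * n + 250 * k ^ 2 * n := Nat.add_le_add_left h2 _
    _ = 400 * k ^ 2 * n := by ring
    _ = q * n := by rw [hq]
    _ ≤ (q + 1) * n := Nat.mul_le_mul_right _ (by omega)

/-- the main combinatorial theorem for the pattern with rows `1 1` and `1 0` -/
theorem main_E (S : α → Finset β) (n k : ℕ) (hα : Fintype.card α = n)
    (hβ : Fintype.card β = n) (hk : 1 ≤ k)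
    (hNE : NE S * (5 * k * (400 * k ^ 2) * (400 * k ^ 2 + 1)) ^ 4 ≤ n ^ 4) :
    ∃ B : α → Finset β, EFree B ∧ k * ∑ u, (symmDiff (S u) (B u)).card ≤ n ^ 2 := by
  obtain ⟨q, hq⟩ : ∃ q, q = 400 * k ^ 2 := ⟨_, rfl⟩
  obtain ⟨M, hM⟩ : ∃ M, M = 5 * k * q * (q + 1) := ⟨_, rfl⟩
  rw [← hq, ← hM] at hNE
  obtain ⟨hM1, hM2, hP1, hP2⟩ := param_arith k q M hk hq hM
  by_cases hn : n < M
  · have h0 : NE S = 0 := by
      by_contra hne
      have h1 : 1 ≤ NE S := Nat.one_le_iff_ne_zero.2 hne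
      have h2 : M ^ 4 ≤ NE S * M ^ 4 := by
        calc M ^ 4 = 1 * M ^ 4 := (one_mul _).symm
          _ ≤ NE S * M ^ 4 := Nat.mul_le_mul_right _ h1
      have h3 : n ^ 4 < M ^ 4 := Nat.pow_lt_pow_left hn (by norm_num)
      omega
    refine ⟨S, EFree_of_NE S h0, ?_⟩
    have : ∑ u, (symmDiff (S u) (S u)).card = 0 :=
      Finset.sum_eq_zero (fun u _ => by rw [symmDiff_self]; rfl)
    rw [this, mul_zero]
    exact Nat.zero_le _
  · rw [not_lt] at hn
    have hnpos : 0 < n := lt_of_lt_of_le hM1 hn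
    obtain ⟨L, hL⟩ : ∃ L, L = n / M := ⟨_, rfl⟩
    have hL1 : 1 ≤ L := by
      rw [hL]
      exact Nat.div_pos hn hM1
    have hLM : L * M ≤ n := by
      rw [hL]
      exact Nat.div_mul_le_self n M
    have hn2 : n ≤ 2 * (L * M) := by
      have h1 : n < (L + 1) * M := by
        rw [hL, mul_comm]
        exact Nat.lt_mul_div_succ n hM1
      have h2 : (L + 1) * M ≤ 2 * (L * M) := by
        calc (L + 1) * M ≤ (L + L) * M := Nat.mul_le_mul_right _ (by omega)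
          _ = 2 * (L * M) := by ring
      omega
    have hHs : (∑ a, ∑ b, hh S a b) ^ 2 ≤ n ^ 2 * (4 * NE S) := by
      have := hh_sum_sq S
      rw [hα] at this
      exact this
    have hK1 := arith_K (15 * k * q ^ 2) _ n _ M hHs hNE hP1
    have hK2 := arith_K (30 * k * M * q) _ n _ M hHs hNE hP2
    have hne : Nonempty α := Fintype.card_pos_iff.1 (by rw [hα]; exact hnpos)
    have hcard : Fintype.card (Fin q → α) = n ^ q := by
      rw [Fintype.card_fun, Fintype.card_fin, hα]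
    have H1 : 3 * ∑ s : Fin q → α, 5 * k * dS S s ≤ Fintype.card (Fin q → α) * n := by
      rw [hcard, ← Finset.mul_sum]
      have h := sum_dS S q
      rw [hα] at h
      have h' : n ^ 2 * (3 * (5 * k * ∑ s : Fin q → α, dS S s)) ≤ n ^ 2 * (n ^ q * n) := by
        calc n ^ 2 * (3 * (5 * k * ∑ s : Fin q → α, dS S s))
            = 15 * k * (n ^ 2 * ∑ s : Fin q → α, dS S s) := by ring
          _ ≤ 15 * k * (q ^ 2 * (n ^ q * ∑ a, ∑ b, hh S a b)) := Nat.mul_le_mul_left _ h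
          _ = n ^ q * (15 * k * q ^ 2 * ∑ a, ∑ b, hh S a b) := by ring
          _ ≤ n ^ q * n ^ 3 := Nat.mul_le_mul_left _ hK1
          _ = n ^ 2 * (n ^ q * n) := by ring
      exact Nat.le_of_mul_le_mul_left h' (by positivity)
    have H2 : 3 * ∑ s : Fin q → α, 10 * k * M * pS S s
        ≤ Fintype.card (Fin q → α) * n ^ 2 := by
      rw [hcard, ← Finset.mul_sum]
      have h := sum_pS S q
      rw [hα] at h
      have h' : n * (3 * (10 * k * M * ∑ s : Fin q → α, pS S s)) ≤ n * (n ^ q * n ^ 2) := by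
        calc n * (3 * (10 * k * M * ∑ s : Fin q → α, pS S s))
            = 30 * k * M * (n * ∑ s : Fin q → α, pS S s) := by ring
          _ = 30 * k * M * (q * (n ^ q * ∑ a, ∑ b, hh S a b)) := by rw [h]
          _ = n ^ q * (30 * k * M * q * ∑ a, ∑ b, hh S a b) := by ring
          _ ≤ n ^ q * n ^ 3 := Nat.mul_le_mul_left _ hK2
          _ = n * (n ^ q * n ^ 2) := by ring
      exact Nat.le_of_mul_le_mul_left h' hnpos
    have H3 : 3 * ∑ s : Fin q → α, 50 * k ^ 2 * uS S s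
        ≤ Fintype.card (Fin q → α) * n ^ 3 := by
      rw [hcard, ← Finset.mul_sum]
      have h := sum_uS S q
      rw [hα, hβ] at h
      have hp3 := param_arith3 k q M n hq hM2 hn
      have h' : (q + 1) * (3 * (50 * k ^ 2 * ∑ s : Fin q → α, uS S s))
          ≤ (q + 1) * (n ^ q * n ^ 3) := by
        calc (q + 1) * (3 * (50 * k ^ 2 * ∑ s : Fin q → α, uS S s))
            = 150 * k ^ 2 * ((q + 1) * ∑ s : Fin q → α, uS S s) := by ring
          _ ≤ 150 * k ^ 2 * (n ^ 2 * (n ^ q * (n + q + 1))) := Nat.mul_le_mul_left _ h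
          _ = n ^ 2 * n ^ q * (150 * k ^ 2 * (n + q + 1)) := by ring
          _ ≤ n ^ 2 * n ^ q * ((q + 1) * n) := Nat.mul_le_mul_left _ hp3
          _ = (q + 1) * (n ^ q * n ^ 3) := by ring
      exact Nat.le_of_mul_le_mul_left h' (by omega)
    obtain ⟨s, h1, h2, h3⟩ := markov3 (fun s : Fin q → α => 5 * k * dS S s)
      (fun s => 10 * k * M * pS S s) (fun s => 50 * k ^ 2 * uS S s) n (n ^ 2) (n ^ 3) H1 H2 H3
    obtain ⟨B, MS, hB, hMS, hcost⟩ := build_cost S (univ.image s) L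
    refine ⟨B, hB, ?_⟩
    rw [hα, hβ] at hcost
    rw [hα] at hMS
    have hPS : ∑ u, (Pset S (univ.image s) u).card ≤ pS S s :=
      Finset.sum_le_sum (fun u _ => pset_card_le S s u)
    exact cost_arith n k q M L (Dset S (univ.image s)).card (Bad S (univ.image s) L).card
      (∑ u, (Pset S (univ.image s) u).card) MS (univ.image s).card (dS S s) (pS S s) (uS S s)
      _ hM hM1 hLM hn2 (dset_card_le S s) hPS (image_card_le s) (bad_card S (univ.image s) L)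
      hMS h1 h2 h3 hcost

end Vale.Agent.Lib.P037.EPat
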