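import Vale.Agent.Lib.P037.EPat.Matrix

namespace Vale.Agent.Lib.P037

open Finset

/-- reversal of the row order -/
def eRevRows {k n : ℕ} (A : Fin k → Fin n → Bool) : Fin k → Fin n → Bool :=
  fun r c => A (Fin.rev r) c

/-- reversal of the column order -/
def eRevCols {k n : ℕ} (A : Fin k → Fin n → Bool) : Fin k → Fin n → Bool :=
  fun r c => A r (Fin.rev c)

theorem eRevRows_eRevRows {k n : ℕ} (A : Fin k → Fin n → Bool) : eRevRows (eRevRows A) = A := by
  funext r c
  simp [eRevRows]

theorem eRevCols_eRevCols {k n : ℕ} (A : Fin k → Fin n → Bool) : eRevCols (eRevCols A) = A := by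
  funext r c
  simp [eRevCols]

/-- conjugation of an index map by the order reversals -/
def conj {k n : ℕ} (r : Fin k → Fin n) : Fin k → Fin n := fun i => Fin.rev (r (Fin.rev i))

theorem conj_conj {k n : ℕ} (r : Fin k → Fin n) : conj (conj r) = r := by
  funext i
  simp [conj]

theorem conj_strictMono {k n : ℕ} {r : Fin k → Fin n} (h : StrictMono r) :
    StrictMono (conj r) := by
  intro i j hij
  unfold conj
  rw [Fin.rev_lt_rev]
  apply h
  rw [Fin.rev_lt_rev]
  exact hij

theorem numCopies_eRevRows {k n : ℕ} (H : Fin k → Fin k → Bool) (A : Fin n → Fin n → Bool) :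
    numCopies (eRevRows H) (eRevRows A) = numCopies H A := by
  unfold numCopies
  refine Finset.card_bij' (fun p _ => (conj p.1, p.2)) (fun p _ => (conj p.1, p.2)) ?_ ?_ ?_ ?_
  · rintro ⟨r, c⟩ hp
    rw [mem_filter] at hp ⊢
    obtain ⟨-, h1, h2, h3⟩ := hp
    refine ⟨mem_univ _, conj_strictMono h1, h2, fun i j => ?_⟩
    have := h3 (Fin.rev i) j
    simp only [eRevRows, conj, Fin.rev_rev] at this ⊢
    exact this
  · rintro ⟨r, c⟩ hp
    rw [mem_filter] at hp ⊢
    obtain ⟨-, h1, h2, h3⟩ := hp
    refine ⟨mem_univ _, conj_strictMono h1, h2, fun i j => ?_⟩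
    have := h3 (Fin.rev i) j
    simp only [eRevRows, conj, Fin.rev_rev] at this ⊢
    exact this
  · rintro ⟨r, c⟩ _
    simp only [conj_conj]
  · rintro ⟨r, c⟩ _
    simp only [conj_conj]

theorem numCopies_eRevCols {k n : ℕ} (H : Fin k → Fin k → Bool) (A : Fin n → Fin n → Bool) :
    numCopies (eRevCols H) (eRevCols A) = numCopies H A := by
  unfold numCopies
  refine Finset.card_bij' (fun p _ => (p.1, conj p.2)) (fun p _ => (p.1, conj p.2)) ?_ ?_ ?_ ?_
  · rintro ⟨r, c⟩ hp
    rw [mem_filter] at hp ⊢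
    obtain ⟨-, h1, h2, h3⟩ := hp
    refine ⟨mem_univ _, h1, conj_strictMono h2, fun i j => ?_⟩
    have := h3 i (Fin.rev j)
    simp only [eRevCols, conj, Fin.rev_rev] at this ⊢
    exact this
  · rintro ⟨r, c⟩ hp
    rw [mem_filter] at hp ⊢
    obtain ⟨-, h1, h2, h3⟩ := hp
    refine ⟨mem_univ _, h1, conj_strictMono h2, fun i j => ?_⟩
    have := h3 i (Fin.rev j)
    simp only [eRevCols, conj, Fin.rev_rev] at this ⊢
    exact this
  · rintro ⟨r, c⟩ _
    simp only [conj_conj]
  · rintro ⟨r, c⟩ _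
    simp only [conj_conj]

theorem numDiff_eRevRows {n : ℕ} (A B : Fin n → Fin n → Bool) :
    numDiff (eRevRows A) (eRevRows B) = numDiff A B := by
  unfold numDiff
  refine Finset.card_bij' (fun p _ => (Fin.rev p.1, p.2)) (fun p _ => (Fin.rev p.1, p.2))
    ?_ ?_ ?_ ?_
  · rintro ⟨r, c⟩ hp
    rw [mem_filter] at hp ⊢
    exact ⟨mem_univ _, hp.2⟩
  · rintro ⟨r, c⟩ hp
    rw [mem_filter] at hp ⊢
    refine ⟨mem_univ _, ?_⟩
    simp only [eRevRows, Fin.rev_rev]
    exact hp.2
  · rintro ⟨r, c⟩ _
    simp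
  · rintro ⟨r, c⟩ _
    simp

theorem numDiff_eRevCols {n : ℕ} (A B : Fin n → Fin n → Bool) :
    numDiff (eRevCols A) (eRevCols B) = numDiff A B := by
  unfold numDiff
  refine Finset.card_bij' (fun p _ => (p.1, Fin.rev p.2)) (fun p _ => (p.1, Fin.rev p.2))
    ?_ ?_ ?_ ?_
  · rintro ⟨r, c⟩ hp
    rw [mem_filter] at hp ⊢
    exact ⟨mem_univ _, hp.2⟩
  · rintro ⟨r, c⟩ hp
    rw [mem_filter] at hp ⊢
    refine ⟨mem_univ _, ?_⟩
    simp only [eRevCols, Fin.rev_rev]
    exact hp.2
  · rintro ⟨r, c⟩ _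
    simp
  · rintro ⟨r, c⟩ _
    simp

/-- a removal bound for a pattern: `f ε * n ^ 4` copies in every `ε`-far matrix -/
def ERemoval (f : ℝ → ℝ) (H : Fin 2 → Fin 2 → Bool) : Prop :=
  ∀ (n : ℕ) (ε : ℝ) (A : Fin n → Fin n → Bool), 0 < ε → ε < 1 →
    (∀ B : Fin n → Fin n → Bool, numCopies H B = 0 → ε * (n : ℝ) ^ 2 ≤ (numDiff A B : ℝ)) →
    f ε * (n : ℝ) ^ 4 ≤ (numCopies H A : ℝ)

theorem ERemoval.compl {f : ℝ → ℝ} {H : Fin 2 → Fin 2 → Bool} (h : ERemoval f H) :
    ERemoval f (compl H) := by
  intro n ε A hε hε1 hfar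
  have key := h n ε (Vale.Agent.Lib.P037.compl A) hε hε1 (by
    intro B hB
    have h1 := hfar (Vale.Agent.Lib.P037.compl B) (by rw [numCopies_compl]; exact hB)
    rw [← numDiff_compl, compl_compl] at h1
    exact h1)
  rw [← numCopies_compl, compl_compl] at key
  exact key

theorem ERemoval.eRevRows {f : ℝ → ℝ} {H : Fin 2 → Fin 2 → Bool} (h : ERemoval f H) :
    ERemoval f (eRevRows H) := by
  intro n ε A hε hε1 hfar
  have key := h n ε (Vale.Agent.Lib.P037.eRevRows A) hε hε1 (by
    intro B hB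
    have h1 := hfar (Vale.Agent.Lib.P037.eRevRows B) (by rw [numCopies_eRevRows]; exact hB)
    rw [← numDiff_eRevRows, eRevRows_eRevRows] at h1
    exact h1)
  rw [← numCopies_eRevRows, eRevRows_eRevRows] at key
  exact key

theorem ERemoval.eRevCols {f : ℝ → ℝ} {H : Fin 2 → Fin 2 → Bool} (h : ERemoval f H) :
    ERemoval f (eRevCols H) := by
  intro n ε A hε hε1 hfar
  have key := h n ε (Vale.Agent.Lib.P037.eRevCols A) hε hε1 (by
    intro B hB
    have h1 := hfar (Vale.Agent.Lib.P037.eRevCols B) (by rw [numCopies_eRevCols]; exact hB)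
    rw [← numDiff_eRevCols, eRevCols_eRevCols] at h1
    exact h1)
  rw [← numCopies_eRevCols, eRevCols_eRevCols] at key
  exact key

theorem removal_E : ERemoval (fun ε => (ε / 46) ^ 20) ePattern :=
  fun n ε A hε hε1 hfar => E_removal n ε A hε hε1 hfar

/-- the number of ones of a `2 × 2` pattern -/
def numOnes (H : Fin 2 → Fin 2 → Bool) : ℕ :=
  (Finset.univ.filter (fun p : Fin 2 × Fin 2 => H p.1 p.2 = true)).card

/-- every `2 × 2` pattern is determined by its four entries -/
theorem pattern_eq (H : Fin 2 → Fin 2 → Bool) :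
    H = fun i j => if i = 0 then (if j = 0 then H 0 0 else H 0 1)
      else (if j = 0 then H 1 0 else H 1 1) := by
  funext i j
  fin_cases i <;> fin_cases j <;> simp

/-- the eight patterns with an odd number of ones -/
theorem odd_cases (H : Fin 2 → Fin 2 → Bool) (hH : Odd (numOnes H)) :
    H = ePattern ∨ H = eRevRows ePattern ∨ H = eRevCols ePattern ∨
    H = eRevRows (eRevCols ePattern) ∨ H = compl ePattern ∨ H = compl (eRevRows ePattern) ∨
    H = compl (eRevCols ePattern) ∨ H = compl (eRevRows (eRevCols ePattern)) := by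
  have hpat := pattern_eq H
  have hones : numOnes H = (if H 0 0 then 1 else 0) + (if H 0 1 then 1 else 0)
      + (if H 1 0 then 1 else 0) + (if H 1 1 then 1 else 0) := by
    unfold numOnes
    rw [Finset.card_filter, Fintype.sum_prod_type, Fin.sum_univ_two, Fin.sum_univ_two,
      Fin.sum_univ_two]
    ring
  rw [hones] at hH
  cases h00 : H 0 0 <;> cases h01 : H 0 1 <;> cases h10 : H 1 0 <;> cases h11 : H 1 1 <;>
    simp only [h00, h01, h10, h11] at hH hpat <;>
    first
    | (exfalso; revert hH; decide)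
    | (left; rw [hpat]; funext i j; fin_cases i <;> fin_cases j <;> rfl)
    | (right; left; rw [hpat]; funext i j; fin_cases i <;> fin_cases j <;> rfl)
    | (right; right; left; rw [hpat]; funext i j; fin_cases i <;> fin_cases j <;> rfl)
    | (right; right; right; left; rw [hpat]; funext i j; fin_cases i <;> fin_cases j <;> rfl)
    | (right; right; right; right; left; rw [hpat]; funext i j;
        fin_cases i <;> fin_cases j <;> rfl)
    | (right; right; right; right; right; left; rw [hpat]; funext i j;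
        fin_cases i <;> fin_cases j <;> rfl)
    | (right; right; right; right; right; right; left; rw [hpat]; funext i j;
        fin_cases i <;> fin_cases j <;> rfl)
    | (right; right; right; right; right; right; right; rw [hpat]; funext i j;
        fin_cases i <;> fin_cases j <;> rfl)

theorem removal_odd (H : Fin 2 → Fin 2 → Bool) (hH : Odd (numOnes H)) :
    ERemoval (fun ε => (ε / 46) ^ 20) H := by
  rcases odd_cases H hH with h | h | h | h | h | h | h | h <;> rw [h]
  · exact removal_E
  · exact removal_E.eRevRows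
  · exact removal_E.eRevCols
  · exact removal_E.eRevCols.eRevRows
  · exact removal_E.compl
  · exact removal_E.eRevRows.compl
  · exact removal_E.eRevCols.compl
  · exact removal_E.eRevCols.eRevRows.compl

end Vale.Agent.Lib.P037
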